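import Mathlib

/-!
The hypergraph container lemma (one step), after the short proof of Nenadov and Pham.
Edges are indexed: `H` is a finite set of indices and `E i` is the vertex set of the edge `i`.
-/

open Finset

namespace Vale.Agent.N057

theorem exists_pick : ∃ pick : (ℕ → ℕ) → Finset ℕ → ℕ, ∀ w S, S.Nonempty →
    pick w S ∈ S ∧ (∀ u ∈ S, w u ≤ w (pick w S)) ∧
      ∀ T, T ⊆ S → pick w S ∈ T → pick w T = pick w S := by
  have h : ∀ (w : ℕ → ℕ) (S : Finset ℕ), ∃ v, S.Nonempty →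
      v ∈ S ∧ ∀ u ∈ S, toLex (w u, u) ≤ toLex (w v, v) := fun w S => by
    by_cases hS : S.Nonempty
    · obtain ⟨v, hv, h⟩ := S.exists_max_image (fun u => toLex (w u, u)) hS
      exact ⟨v, fun _ => ⟨hv, h⟩⟩
    · exact ⟨0, fun h => absurd h hS⟩
  choose pick hp using h
  refine ⟨pick, fun w S hS => ⟨(hp w S hS).1, fun u hu => ?_, fun T hT hv => ?_⟩⟩
  · have := (hp w S hS).2 u hu
    rcases Prod.Lex.toLex_le_toLex.1 this with h | h
    · exact h.le
    · exact h.1.le
  · have h1 := (hp w T ⟨_, hv⟩).2 _ hv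
    have h2 := (hp w S hS).2 _ (hT (hp w T ⟨_, hv⟩).1)
    have h3 := toLex.injective (le_antisymm h2 h1)
    exact (Prod.ext_iff.1 h3).2

variable {ι : Type} [DecidableEq ι]

/-- the number of edges that contain `X` -/
def dg (H : Finset ι) (E : ι → Finset ℕ) (X : Finset ℕ) : ℕ := (H.filter fun i => X ⊆ E i).card

/-- state of the container algorithm -/
structure St (ι : Type) where
  F : Finset ℕ
  L : Finset ι
  G : ι → Finset ℕ

open Classical in
/-- the edges still available -/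
noncomputable def rest (H : Finset ι) (E : ι → Finset ℕ) (a : ℕ → ℝ) (s : St ι) : Finset ι :=
  H.filter fun i => Disjoint (E i) s.F ∧ ∀ X ⊆ E i, X.Nonempty → (dg s.L s.G X : ℝ) ≤ a X.card

/-- one round -/
noncomputable def add (H : Finset ι) (E : ι → Finset ℕ) (a : ℕ → ℝ) (s : St ι) (v : ℕ) : St ι :=
  ⟨insert v s.F, s.L ∪ (rest H E a s).filter (fun i => v ∈ E i),
    fun i => if i ∈ s.L then s.G i else (E i).erase v⟩

/-- the algorithm -/
noncomputable def run (pick : (ℕ → ℕ) → Finset ℕ → ℕ) (H : Finset ι) (E : ι → Finset ℕ)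
    (a : ℕ → ℝ) (I : Finset ℕ) : ℕ → St ι
  | 0 => ⟨∅, ∅, E⟩
  | t + 1 => add H E a (run pick H E a I t)
      (pick (fun u => dg (rest H E a (run pick H E a I t)) E {u}) (I \ (run pick H E a I t).F))

variable {H : Finset ι} {E : ι → Finset ℕ} {a : ℕ → ℝ}

omit [DecidableEq ι] in
theorem mem_rest {s : St ι} {i : ι} : i ∈ rest H E a s ↔ i ∈ H ∧ Disjoint (E i) s.F ∧
    ∀ X ⊆ E i, X.Nonempty → (dg s.L s.G X : ℝ) ≤ a X.card := by
  unfold rest; rw [mem_filter]

omit [DecidableEq ι] in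
theorem dg_mono {H H' : Finset ι} (h : H ⊆ H') (E : ι → Finset ℕ) (X : Finset ℕ) :
    dg H E X ≤ dg H' E X := card_le_card (filter_subset_filter _ h)

theorem dg_add_ge (s : St ι) (v : ℕ) (X : Finset ℕ) :
    dg s.L s.G X ≤ dg (add H E a s v).L (add H E a s v).G X := by
  refine card_le_card fun i hi => ?_
  obtain ⟨h1, h2⟩ := mem_filter.1 hi
  refine mem_filter.2 ⟨mem_union_left _ h1, ?_⟩
  simpa only [add, if_pos h1] using h2

theorem rest_add (s : St ι) (v : ℕ) : rest H E a (add H E a s v) ⊆ rest H E a s := fun i hi => by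
  obtain ⟨h1, h2, h3⟩ := mem_rest.1 hi
  refine mem_rest.2 ⟨h1, h2.mono_right (subset_insert _ _), fun X hX hn => ?_⟩
  exact le_trans (by exact_mod_cast dg_add_ge s v X) (h3 X hX hn)

/-- the invariant of the state -/
def Inv (H : Finset ι) (E : ι → Finset ℕ) (a : ℕ → ℝ) (s : St ι) : Prop :=
  (∀ i ∈ s.L, i ∈ H ∧ ∃ v ∈ s.F, v ∈ E i ∧ s.G i = (E i).erase v) ∧
    ∀ X : Finset ℕ, X.Nonempty → (dg s.L s.G X : ℝ) ≤ 2 * a X.card

theorem card_add {s : St ι} (hs : Inv H E a s) (v : ℕ) :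
    (add H E a s v).L.card = s.L.card + dg (rest H E a s) E {v} := by
  unfold add dg
  rw [card_union_of_disjoint]
  · simp only [singleton_subset_iff]
  · refine disjoint_left.2 fun i h1 h2 => ?_
    obtain ⟨-, u, h3, h4, -⟩ := hs.1 i h1
    exact disjoint_left.1 (mem_rest.1 (mem_filter.1 h2).1).2.1 h4 h3

theorem inv_add (ha : ∀ (X : Finset ℕ) (v : ℕ), X.Nonempty → v ∉ X →
      (dg H E (insert v X) : ℝ) ≤ a X.card) {s : St ι} (hs : Inv H E a s) (v : ℕ) :
    Inv H E a (add H E a s v) := by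
  refine ⟨fun i hi => ?_, fun X hX => ?_⟩
  · by_cases h : i ∈ s.L
    · obtain ⟨h1, u, h2, h3, h4⟩ := hs.1 i h
      exact ⟨h1, u, mem_insert_of_mem h2, h3, by simp only [add, if_pos h, h4]⟩
    · have h1 := mem_filter.1 ((mem_union.1 hi).resolve_left h)
      exact ⟨(mem_rest.1 h1.1).1, v, mem_insert_self _ _, h1.2, by simp only [add, if_neg h]⟩
  · by_cases h : (dg s.L s.G X : ℝ) ≤ a X.card
    · by_cases hv : v ∈ X
      · refine le_trans ?_ (hs.2 X hX)
        refine Nat.cast_le.2 (card_le_card fun i hi => ?_)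
        obtain ⟨h1, h2⟩ := mem_filter.1 hi
        by_cases h3 : i ∈ s.L
        · exact mem_filter.2 ⟨h3, by simpa only [add, if_pos h3] using h2⟩
        · simp only [add, if_neg h3] at h2
          exact absurd (h2 hv) (notMem_erase _ _)
      · have h1 : dg (add H E a s v).L (add H E a s v).G X ≤
            dg s.L s.G X + dg H E (insert v X) := by
          refine le_trans (card_le_card fun i hi => ?_) (card_union_le _ _)
          obtain ⟨h1, h2⟩ := mem_filter.1 hi
          by_cases h3 : i ∈ s.L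
          · exact mem_union_left _ (mem_filter.2 ⟨h3, by simpa only [add, if_pos h3] using h2⟩)
          · simp only [add, if_neg h3] at h2
            have h4 := mem_filter.1 ((mem_union.1 h1).resolve_left h3)
            exact mem_union_right _ (mem_filter.2 ⟨(mem_rest.1 h4.1).1,
              insert_subset h4.2 (h2.trans (erase_subset _ _))⟩)
        have h2 : (dg (add H E a s v).L (add H E a s v).G X : ℝ) ≤
            dg s.L s.G X + dg H E (insert v X) := by exact_mod_cast h1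
        linarith [ha X v hX hv]
    · refine le_trans ?_ (hs.2 X hX)
      refine Nat.cast_le.2 (card_le_card fun i hi => ?_)
      obtain ⟨h1, h2⟩ := mem_filter.1 hi
      by_cases h3 : i ∈ s.L
      · exact mem_filter.2 ⟨h3, by simpa only [add, if_pos h3] using h2⟩
      · simp only [add, if_neg h3] at h2
        have h4 := mem_filter.1 ((mem_union.1 h1).resolve_left h3)
        exact absurd ((mem_rest.1 h4.1).2.2 X (h2.trans (erase_subset _ _)) hX) h

theorem run_spec {pick : (ℕ → ℕ) → Finset ℕ → ℕ} (hp : ∀ w S, S.Nonempty →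
      pick w S ∈ S ∧ (∀ u ∈ S, w u ≤ w (pick w S)) ∧
        ∀ T, T ⊆ S → pick w S ∈ T → pick w T = pick w S)
    (a0 : ∀ j, 0 ≤ a j)
    (ha : ∀ (X : Finset ℕ) (v : ℕ), X.Nonempty → v ∉ X → (dg H E (insert v X) : ℝ) ≤ a X.card)
    (I : Finset ℕ) (t : ℕ) (ht : t ≤ I.card) :
    (run pick H E a I t).F ⊆ I ∧ (run pick H E a I t).F.card = t ∧ Inv H E a (run pick H E a I t) ∧
      (∀ u ∈ I \ (run pick H E a I t).F,
        t * dg (rest H E a (run pick H E a I t)) E {u} ≤ (run pick H E a I t).L.card) ∧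
      ∀ J, (run pick H E a I t).F ⊆ J → J ⊆ I → run pick H E a J t = run pick H E a I t := by
  induction t with
  | zero =>
    refine ⟨empty_subset _, rfl, ⟨fun i hi => absurd hi (notMem_empty _), fun X _ => ?_⟩,
      fun u _ => by simp, fun J _ _ => rfl⟩
    have := a0 X.card
    have h0 : dg (∅ : Finset ι) E X = 0 := by simp [dg]
    simp only [run, h0, Nat.cast_zero]
    linarith
  | succ t ih =>
    obtain ⟨h1, h2, h3, h4, h5⟩ := ih (by omega)
    set s := run pick H E a I t with hs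
    set w : ℕ → ℕ := fun u => dg (rest H E a s) E {u} with hw
    have hn : (I \ s.F).Nonempty := by
      rw [← card_pos, card_sdiff_of_subset h1]; omega
    obtain ⟨p1, p2, p3⟩ := hp w _ hn
    set v := pick w (I \ s.F) with hv
    have e : run pick H E a I (t + 1) = add H E a s v := rfl
    rw [e]
    obtain ⟨q1, q2⟩ := mem_sdiff.1 p1
    refine ⟨insert_subset q1 h1, by simp only [add]; rw [card_insert_of_notMem q2, h2],
      inv_add ha h3 v, fun u hu => ?_, fun J j1 j2 => ?_⟩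
    · have hu' : u ∈ I \ s.F := sdiff_subset_sdiff Subset.rfl (subset_insert _ _) hu
      have k1 := dg_mono (rest_add (H := H) (E := E) (a := a) s v) E {u}
      have k2 := h4 u hu'
      have k3 : dg (rest H E a s) E {u} ≤ dg (rest H E a s) E {v} := p2 u hu'
      rw [card_add h3]
      nlinarith [Nat.mul_le_mul_left (t + 1) k1]
    · have k1 := h5 J ((subset_insert _ _).trans j1) j2
      have e' : run pick H E a J (t + 1) = add H E a (run pick H E a J t)
        (pick (fun u => dg (rest H E a (run pick H E a J t)) E {u})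
          (J \ (run pick H E a J t).F)) := rfl
      rw [e', k1, p3 (J \ s.F) (sdiff_subset_sdiff j2 Subset.rfl)
        (mem_sdiff.2 ⟨j1 (mem_insert_self _ _), q2⟩)]

omit [DecidableEq ι] in
theorem card_le_sum_dg (R : Finset ι) (E : ι → Finset ℕ) (S : Finset ℕ)
    (h : ∀ i ∈ R, ∃ v ∈ S, v ∈ E i) : R.card ≤ ∑ v ∈ S, dg R E {v} := by
  classical
  have h1 : R ⊆ S.biUnion fun v => R.filter fun i => ({v} : Finset ℕ) ⊆ E i := fun i hi => by
    obtain ⟨v, h1, h2⟩ := h i hi
    exact mem_biUnion.2 ⟨v, h1, mem_filter.2 ⟨hi, singleton_subset_iff.2 h2⟩⟩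
  unfold dg
  exact (card_le_card h1).trans card_biUnion_le

omit [DecidableEq ι] in
theorem sum_dg_le (L : Finset ι) (G : ι → Finset ℕ) (S : Finset (Finset ℕ)) {k : ℕ}
    (h : ∀ i ∈ L, (G i).card = k) : ∑ X ∈ S, dg L G X ≤ 2 ^ k * L.card := by
  unfold dg
  simp only [card_filter]
  rw [sum_comm, mul_comm, ← smul_eq_mul]
  refine sum_le_card_nsmul _ _ _ fun i hi => ?_
  rw [← card_filter, ← h i hi, ← card_powerset]
  exact card_le_card fun X hX => mem_powerset.2 (mem_filter.1 hX).2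

omit [DecidableEq ι] in
theorem sum_dg_one (R : Finset ι) (hR : R ⊆ H) (S : Finset ℕ) {n b : ℝ} (n0 : 0 ≤ n)
    (d1 : ∀ v, (dg H E {v} : ℝ) * n ≤ b) : (∑ v ∈ S, (dg R E {v} : ℝ)) * n ≤ S.card * b := by
  rw [sum_mul, ← nsmul_eq_mul]
  refine sum_le_card_nsmul _ _ _ fun v _ => le_trans ?_ (d1 v)
  exact mul_le_mul_of_nonneg_right (Nat.cast_le.2 (dg_mono hR E _)) n0

/-- few edges contain a heavy set -/
theorem heavy {n K p : ℝ} {k : ℕ} (hp : 0 < p) (n0 : 0 < n) (hE : ∀ i ∈ H, (E i).card = k + 1)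
    (hd : ∀ X : Finset ℕ, X.Nonempty → (dg H E X : ℝ) * n ≤ K * p ^ (X.card - 1) * H.card)
    (ha : ∀ j, a j = K * p ^ j * H.card / n) {s : St ι} (hs : Inv H E a s)
    (hL : (s.L.card : ℝ) ≤ p * H.card / 2 ^ (k + 2)) (Y : Finset (Finset ℕ))
    (hY : ∀ X ∈ Y, X.Nonempty ∧ a X.card < dg s.L s.G X) :
    ((Y.biUnion fun X => H.filter fun i => X ⊆ E i).card : ℝ) ≤ H.card / 4 := by
  have h1 : ((Y.biUnion fun X => H.filter fun i => X ⊆ E i).card : ℝ) ≤
      ∑ X ∈ Y, (dg H E X : ℝ) := by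
    have := card_biUnion_le (s := Y) (t := fun X => H.filter fun i => X ⊆ E i)
    unfold dg
    exact_mod_cast this
  have h2 : ∑ X ∈ Y, (dg s.L s.G X : ℝ) ≤ 2 ^ k * s.L.card := by
    have := sum_dg_le s.L s.G Y (k := k) fun i hi => by
      obtain ⟨h1, v, -, h2, h3⟩ := hs.1 i hi
      rw [h3, card_erase_of_mem h2, hE i h1]; rfl
    exact_mod_cast this
  have h3 : p * ∑ X ∈ Y, (dg H E X : ℝ) ≤ ∑ X ∈ Y, (dg s.L s.G X : ℝ) := by
    rw [mul_sum]
    refine sum_le_sum fun X hX => ?_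
    obtain ⟨k1, k2⟩ := hY X hX
    refine le_trans ?_ k2.le
    have k3 := mul_le_mul_of_nonneg_left (hd X k1) hp.le
    obtain ⟨j, hj⟩ : ∃ j, X.card = j + 1 := ⟨X.card - 1, by have := card_pos.2 k1; omega⟩
    rw [ha, le_div_iff₀ n0]
    rw [hj] at k3 ⊢
    rw [Nat.add_sub_cancel] at k3
    rw [pow_succ]
    linarith
  have h4 : (2 : ℝ) ^ k * (p * H.card / 2 ^ (k + 2)) = p * (H.card / 4) := by
    rw [pow_add]; field_simp; norm_num
  have h5 := mul_le_mul_of_nonneg_left hL (show (0 : ℝ) ≤ 2 ^ k by positivity)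
  have h6 := mul_le_mul_of_nonneg_left h1 hp.le
  exact le_of_mul_le_mul_left (by linarith) hp

theorem small_num {n h K t c c' r m d x y : ℝ} (hK : 0 < K) (n0 : 0 < n) (h0 : 0 < h)
    (e1 : c + c' + t = n) (e2 : h ≤ r + m + d) (e3 : m * n ≤ t * (K * h)) (e4 : d ≤ h / 4)
    (e5 : r ≤ x + y) (e6 : y * n ≤ c' * (K * h)) (e7 : x ≤ h / 4) :
    c ≤ (1 - 1 / (2 * K)) * n := by
  have e8 : n * h ≤ (2 * K * (c' + t)) * h := by
    have h1 : h / 2 ≤ m + y := by linarith
    nlinarith [mul_le_mul_of_nonneg_right h1 n0.le]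
  have e9 := le_of_mul_le_mul_right e8 h0
  have e10 : 1 / (2 * K) * n ≤ c' + t := by
    rw [one_div, inv_mul_le_iff₀ (by positivity)]; exact e9
  linarith

/-- the container when few edges were collected -/
theorem small_case {U : Finset ℕ} {K p : ℝ} {k t : ℕ} (hK : 0 < K) (hp : 0 < p) (hH : H.Nonempty)
    (hE : ∀ i ∈ H, E i ⊆ U ∧ (E i).card = k + 1) (ht : U.card * p ≤ t)
    (hd : ∀ X : Finset ℕ, X.Nonempty → (dg H E X : ℝ) * U.card ≤ K * p ^ (X.card - 1) * H.card)
    (ha : ∀ j, a j = K * p ^ j * H.card / U.card) {s : St ι} (hs : Inv H E a s) (hF : s.F ⊆ U)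
    (hc : s.F.card = t) (hL : (s.L.card : ℝ) ≤ p * H.card / 2 ^ (k + 2)) :
    (((U \ s.F).filter fun v => t * dg (rest H E a s) E {v} ≤ s.L.card).card : ℝ) ≤
      (1 - 1 / (2 * K)) * U.card := by
  classical
  have hR : ∀ i, i ∈ rest H E a s ↔ _ := fun i => mem_rest
  generalize rest H E a s = R at hR ⊢
  obtain ⟨i0, hi0⟩ := hH
  have n0 : (0 : ℝ) < U.card := by
    have := card_le_card (hE i0 hi0).1
    exact_mod_cast (show 0 < U.card by have := (hE i0 hi0).2; omega)
  have h0 : (0 : ℝ) < H.card := by exact_mod_cast card_pos.2 ⟨i0, hi0⟩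
  have t0 : (0 : ℝ) < t := (mul_pos n0 hp).trans_le ht
  have d1 : ∀ v, (dg H E {v} : ℝ) * U.card ≤ K * H.card := fun v => by
    simpa using hd {v} (singleton_nonempty v)
  have e1 : ((((U \ s.F).filter fun v => t * dg R E {v} ≤ s.L.card).card : ℕ) : ℝ) +
      (((U \ s.F).filter fun v => ¬ t * dg R E {v} ≤ s.L.card).card : ℕ) + t = U.card := by
    have h1 := card_filter_add_card_filter_not (s := U \ s.F)
      fun v => t * dg R E {v} ≤ s.L.card
    have h2 := card_sdiff_add_card_eq_card hF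
    rw [← h1, hc] at h2
    exact_mod_cast h2
  have e4 := heavy hp n0 (fun i hi => (hE i hi).2) hd ha hs hL
    (U.powerset.filter fun X => X.Nonempty ∧ a X.card < dg s.L s.G X)
    fun X hX => (mem_filter.1 hX).2
  refine small_num (r := R.card) (m := (H.filter fun i => ¬ Disjoint (E i) s.F).card)
    (x := ∑ v ∈ (U \ s.F).filter fun v => t * dg R E {v} ≤ s.L.card, (dg R E {v} : ℝ))
    (y := ∑ v ∈ (U \ s.F).filter fun v => ¬ t * dg R E {v} ≤ s.L.card, (dg R E {v} : ℝ))
    hK n0 h0 e1 ?_ ?_ e4 ?_ (sum_dg_one R (fun i hi => ((hR i).1 hi).1) _ n0.le d1) ?_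
  · have : H ⊆ R ∪ (H.filter fun i => ¬ Disjoint (E i) s.F) ∪
        (U.powerset.filter fun X => X.Nonempty ∧ a X.card < dg s.L s.G X).biUnion
          fun X => H.filter fun i => X ⊆ E i := fun i hi => by
      by_cases h1 : Disjoint (E i) s.F
      · by_cases h2 : ∀ X ⊆ E i, X.Nonempty → (dg s.L s.G X : ℝ) ≤ a X.card
        · exact mem_union_left _ (mem_union_left _ ((hR i).2 ⟨hi, h1, h2⟩))
        · push Not at h2
          obtain ⟨X, h3, h4, h5⟩ := h2
          exact mem_union_right _ (mem_biUnion.2 ⟨X, mem_filter.2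
            ⟨mem_powerset.2 (h3.trans (hE i hi).1), h4, h5⟩, mem_filter.2 ⟨hi, h3⟩⟩)
      · exact mem_union_left _ (mem_union_right _ (mem_filter.2 ⟨hi, h1⟩))
    have h1 := (card_le_card this).trans ((card_union_le _ _).trans
      (Nat.add_le_add_right (card_union_le _ _) _))
    exact_mod_cast h1
  · have h1 := card_le_sum_dg (H.filter fun i => ¬ Disjoint (E i) s.F) E s.F fun i hi => by
      obtain ⟨v, h1, h2⟩ := not_disjoint_iff.1 (mem_filter.1 hi).2
      exact ⟨v, h2, h1⟩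
    have h2 := sum_dg_one (H.filter fun i => ¬ Disjoint (E i) s.F) (filter_subset _ _) s.F n0.le d1
    rw [hc] at h2
    refine le_trans (mul_le_mul_of_nonneg_right ?_ n0.le) h2
    exact_mod_cast h1
  · rw [sum_filter_add_sum_filter_not]
    have := card_le_sum_dg R E (U \ s.F) fun i hi => by
      obtain ⟨h1, h2, -⟩ := (hR i).1 hi
      obtain ⟨v, hv⟩ : (E i).Nonempty := card_pos.1 (by rw [(hE i h1).2]; omega)
      exact ⟨v, mem_sdiff.2 ⟨(hE i h1).1 hv, disjoint_left.1 h2 hv⟩, hv⟩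
    exact_mod_cast this
  · have hC : ∀ v ∈ (U \ s.F).filter fun v => t * dg R E {v} ≤ s.L.card,
        t * dg R E {v} ≤ s.L.card := fun v hv => (mem_filter.1 hv).2
    have h2 : ((((U \ s.F).filter fun v => t * dg R E {v} ≤ s.L.card).card : ℕ) : ℝ) ≤ U.card :=
      Nat.cast_le.2 (card_le_card ((filter_subset _ _).trans sdiff_subset))
    generalize ((U \ s.F).filter fun v => t * dg R E {v} ≤ s.L.card) = C at hC h2 ⊢
    have h1 : (t : ℝ) * ∑ v ∈ C, (dg R E {v} : ℝ) ≤ C.card * s.L.card := by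
      rw [mul_sum, ← nsmul_eq_mul]
      refine sum_le_card_nsmul _ _ _ fun v hv => ?_
      exact_mod_cast hC v hv
    have h3 : p * H.card / 2 ^ (k + 2) ≤ p * H.card / 4 := by
      refine div_le_div_of_nonneg_left (by positivity) (by norm_num) ?_
      rw [pow_add]
      have : (1 : ℝ) ≤ 2 ^ k := one_le_pow₀ (by norm_num)
      linarith
    have h4 := mul_le_mul h2 (hL.trans h3) (Nat.cast_nonneg _) n0.le
    have h5 := mul_le_mul_of_nonneg_right ht (show (0 : ℝ) ≤ H.card / 4 by positivity)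
    exact le_of_mul_le_mul_left (by linarith) t0

/-- stable fingerprints `Φ` of size at most `f` and containers `Ψ` of size at most `b` for the
subsets of `U` with the property `P` -/
def Good (P : Finset ℕ → Prop) (U : Finset ℕ) (f : ℕ) (b : ℝ) : Prop :=
  ∃ Φ Ψ : Finset ℕ → Finset ℕ, ∀ I, I ⊆ U → P I → Φ I ⊆ I ∧ (Φ I).card ≤ f ∧ Ψ I ⊆ U ∧
    ((Ψ I).card : ℝ) ≤ b ∧ I ⊆ Ψ I ∪ Φ I ∧ ∀ J, Φ I ⊆ J → J ⊆ I → Φ J = Φ I ∧ Ψ J = Ψ I

/-- the container lemma -/
theorem cont (k : ℕ) : ∃ c : ℝ, 2 ≤ c ∧ ∀ (H : Finset ι) (E : ι → Finset ℕ) (U : Finset ℕ)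
    (K p : ℝ) (t : ℕ), 1 ≤ K → 0 < p → H.Nonempty → (∀ i ∈ H, E i ⊆ U ∧ (E i).card = k) →
    U.card * p ≤ t →
    (∀ X : Finset ℕ, X.Nonempty → (dg H E X : ℝ) * U.card ≤ K * p ^ (X.card - 1) * H.card) →
    Good (fun I => ∀ i ∈ H, ¬ E i ⊆ I) U (k * t) ((1 - 1 / (c * K)) * U.card) := by
  classical
  induction k with
  | zero =>
    refine ⟨2, le_rfl, fun H E U K p t _ _ ⟨i, hi⟩ hE _ _ => ⟨id, id, fun I _ hI => ?_⟩⟩
    exact absurd (by rw [card_eq_zero.1 (hE i hi).2]; exact empty_subset _) (hI i hi)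
  | succ k ih =>
    obtain ⟨c, c2, ih⟩ := ih
    obtain ⟨pick, hpk⟩ := exists_pick
    have q1 : (1 : ℝ) ≤ 2 ^ (k + 3) := one_le_pow₀ (by norm_num)
    refine ⟨c * 2 ^ (k + 3), by nlinarith, fun H E U K p t hK hp hH hE ht hd => ?_⟩
    have K0 : 0 < K := by linarith
    obtain ⟨i0, hi0⟩ := hH
    have n0 : (0 : ℝ) < U.card := by
      have := card_le_card (hE i0 hi0).1
      exact_mod_cast (show 0 < U.card by have := (hE i0 hi0).2; omega)
    have h0 : (0 : ℝ) < H.card := by exact_mod_cast card_pos.2 ⟨i0, hi0⟩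
    set a : ℕ → ℝ := fun j => K * p ^ j * H.card / U.card with ha
    have a0 : ∀ j, 0 ≤ a j := fun j => by simp only [ha]; positivity
    have a1 : ∀ (X : Finset ℕ) (v : ℕ), X.Nonempty → v ∉ X →
        (dg H E (insert v X) : ℝ) ≤ a X.card := fun X v _ hv => by
      have := hd _ (insert_nonempty v X)
      rw [card_insert_of_notMem hv, Nat.add_sub_cancel] at this
      simp only [ha]
      rwa [le_div_iff₀ n0]
    have key : ∀ s : St ι, ∃ Φ Ψ : Finset ℕ → Finset ℕ, Inv H E a s →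
        p * H.card / 2 ^ (k + 2) ≤ s.L.card → ∀ I, I ⊆ U → (∀ i ∈ s.L, ¬ s.G i ⊆ I) →
        Φ I ⊆ I ∧ (Φ I).card ≤ k * t ∧ Ψ I ⊆ U ∧
        ((Ψ I).card : ℝ) ≤ (1 - 1 / (c * (2 ^ (k + 3) * K))) * U.card ∧ I ⊆ Ψ I ∪ Φ I ∧
        ∀ J, Φ I ⊆ J → J ⊆ I → Φ J = Φ I ∧ Ψ J = Ψ I := fun s => by
      by_cases h : Inv H E a s ∧ p * H.card / 2 ^ (k + 2) ≤ s.L.card
      · obtain ⟨h1, h2⟩ := h
        have l0 : (0 : ℝ) < s.L.card := lt_of_lt_of_le (by positivity) h2
        obtain ⟨Φ, Ψ, h3⟩ := ih s.L s.G U (2 ^ (k + 3) * K) p t (by nlinarith) hp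
          (card_pos.1 (by exact_mod_cast l0)) (fun i hi => by
            obtain ⟨k1, v, -, k2, k3⟩ := h1.1 i hi
            rw [k3, card_erase_of_mem k2, (hE i k1).2]
            exact ⟨(erase_subset _ _).trans (hE i k1).1, rfl⟩) ht (fun X hX => by
            have k1 := h1.2 X hX
            obtain ⟨j, hj⟩ : ∃ j, X.card = j + 1 := ⟨X.card - 1, by have := card_pos.2 hX; omega⟩
            simp only [ha] at k1
            rw [← mul_div_assoc, le_div_iff₀ n0, hj] at k1
            rw [div_le_iff₀ (by positivity)] at h2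
            rw [hj, Nat.add_sub_cancel]
            refine k1.trans ?_
            have k2 := mul_le_mul_of_nonneg_left h2 (show 0 ≤ 2 * K * p ^ j by positivity)
            rw [pow_succ p, pow_succ (2 : ℝ) (k + 2)]
            linarith)
        exact ⟨Φ, Ψ, fun _ _ => h3⟩
      · exact ⟨id, id, fun h1 h2 => absurd ⟨h1, h2⟩ h⟩
    choose Φ' Ψ' key using key
    set s : Finset ℕ → St ι := fun I => run pick H E a I t with hs
    refine ⟨fun I => if I.card < t then I else
        if p * H.card / 2 ^ (k + 2) ≤ (s I).L.card then (s I).F ∪ Φ' (s I) I else (s I).F,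
      fun I => if I.card < t then ∅ else
        if p * H.card / 2 ^ (k + 2) ≤ (s I).L.card then Ψ' (s I) I else
        (U \ (s I).F).filter fun v => t * dg (rest H E a (s I)) E {v} ≤ (s I).L.card,
      fun I hU hI => ?_⟩
    have b1 : 1 / (c * 2 ^ (k + 3) * K) ≤ 1 / (2 * K) :=
      one_div_le_one_div_of_le (by positivity) (mul_le_mul_of_nonneg_right (by nlinarith) K0.le)
    have b2 : 1 / (2 * K) ≤ 1 := by rw [div_le_one (by positivity)]; linarith
    by_cases c1 : I.card < t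
    · simp only [if_pos c1]
      refine ⟨Subset.rfl, by nlinarith, empty_subset _, ?_, subset_union_right, fun J j1 j2 => ?_⟩
      · rw [card_empty, Nat.cast_zero]; exact mul_nonneg (by linarith) n0.le
      · rw [Subset.antisymm j2 j1]; simp only [if_pos c1, and_self]
    · obtain ⟨r1, r2, r3, r4, r5⟩ := run_spec hpk a0 a1 I t (not_lt.1 c1)
      have st : ∀ J, (s I).F ⊆ J → J ⊆ I → ¬ J.card < t ∧ s J = s I := fun J j1 j2 =>
        ⟨not_lt.2 (r2 ▸ card_le_card j1), r5 J j1 j2⟩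
      simp only [if_neg c1]
      by_cases c3 : p * H.card / 2 ^ (k + 2) ≤ (s I).L.card
      · simp only [if_pos c3]
        obtain ⟨u1, u2, u3, u4, u5, u6⟩ := key (s I) r3 c3 I hU fun i hi h => by
          obtain ⟨k1, v, k2, -, k3⟩ := r3.1 i hi
          refine hI i k1 fun x hx => ?_
          by_cases hv : x = v
          · exact hv ▸ r1 k2
          · exact h (k3 ▸ mem_erase.2 ⟨hv, hx⟩)
        refine ⟨union_subset r1 u1, ?_, u3, by rwa [mul_assoc], u5.trans
          (union_subset_union Subset.rfl subset_union_right), fun J j1 j2 => ?_⟩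
        · have := card_union_le (s I).F (Φ' (s I) I)
          have r2' : (s I).F.card = t := r2
          nlinarith
        · obtain ⟨k1, k2⟩ := st J (subset_union_left.trans j1) j2
          obtain ⟨k3, k4⟩ := u6 J (subset_union_right.trans j1) j2
          simp only [if_neg k1, k2, if_pos c3, k3, k4, and_self]
      · simp only [if_neg c3]
        refine ⟨r1, by have r2' : (s I).F.card = t := r2; nlinarith,
          (filter_subset _ _).trans sdiff_subset, ?_, fun x hx => ?_, fun J j1 j2 => ?_⟩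
        · refine (small_case K0 hp ⟨i0, hi0⟩ hE ht hd (fun _ => rfl) r3 (r1.trans hU) r2
            (not_le.1 c3).le).trans (mul_le_mul_of_nonneg_right (by linarith) n0.le)
        · by_cases hF : x ∈ (s I).F
          · exact mem_union_right _ hF
          · exact mem_union_left _ (mem_filter.2 ⟨mem_sdiff.2 ⟨hU hx, hF⟩,
              r4 x (mem_sdiff.2 ⟨hx, hF⟩)⟩)
        · obtain ⟨k1, k2⟩ := st J j1 j2
          simp only [if_neg k1, k2, if_neg c3, and_self]

end Vale.Agent.N057
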