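import Mathlib

/-!
Supersaturation: from a bound for progression-free sets to many progressions in dense sets.
-/

open Finset

namespace Vale.Agent.N057

/-- no progression of length `k` -/
def Free (k : ℕ) (A : Finset ℕ) : Prop := ∀ a d : ℕ, 0 < d → ¬ ∀ i : ℕ, i < k → a + i * d ∈ A

theorem Free.mono {k : ℕ} {A B : Finset ℕ} (h : Free k A) (hB : B ⊆ A) : Free k B :=
  fun a d hd H => h a d hd fun i hi => hB (H i hi)

/-- the progressions of length `k` inside `A` -/
def aps (k N : ℕ) (A : Finset ℕ) : Finset (ℕ × ℕ) :=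
  (Icc 1 N ×ˢ Icc 1 N).filter fun x => ∀ i : ℕ, i < k → x.1 + i * x.2 ∈ A

theorem mem_aps {k N : ℕ} (hk : 2 ≤ k) {A : Finset ℕ} (hA : A ⊆ Icc 1 N) {x : ℕ × ℕ} :
    x ∈ aps k N A ↔ 0 < x.2 ∧ ∀ i : ℕ, i < k → x.1 + i * x.2 ∈ A := by
  unfold aps
  rw [mem_filter, mem_product]
  refine ⟨fun h => ⟨(mem_Icc.1 h.1.2).1, h.2⟩, fun h => ⟨⟨?_, ?_⟩, h.2⟩⟩
  · simpa using hA (h.2 0 (by omega))
  · have := mem_Icc.1 (hA (h.2 1 (by omega)))
    exact mem_Icc.2 ⟨h.1, by omega⟩

/-- the quasi-polynomial bound -/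
def QP (k C : ℕ) : Prop := ∀ L : ℝ, 2 ≤ L → ∀ M : ℕ, Real.exp (L ^ C) ≤ M →
  ∀ B : Finset ℕ, B ⊆ range M → Free k B → (B.card : ℝ) ≤ Real.exp (-L) * M

/-- many progressions in dense sets -/
def MANY (k C : ℕ) : Prop := ∀ L : ℝ, 2 ≤ L → ∀ N : ℕ, Real.exp (L ^ C) ≤ N →
  ∀ A : Finset ℕ, A ⊆ Icc 1 N → Real.exp (-L) * N ≤ A.card →
    Real.exp (-L ^ C) * (N : ℝ) ^ 2 ≤ (aps k N A).card

theorem absorb (c : ℝ) (C : ℕ) : ∃ C' : ℕ, ∀ L : ℝ, 2 ≤ L → ∀ x : ℝ, 0 ≤ x → x ≤ L ^ 3 →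
    c * Real.exp (3 * x + 3 * x ^ C) ≤ Real.exp (L ^ C') := by
  obtain ⟨e, he⟩ := pow_unbounded_of_one_lt c (show (1 : ℝ) < 2 by norm_num)
  refine ⟨3 * C + 3 + e + 3, fun L hL x x0 hx => ?_⟩
  have L1 : 1 ≤ L := by linarith
  have h1 : c ≤ L ^ (3 * C + 3 + e) :=
    he.le.trans ((pow_le_pow_left₀ (by norm_num) hL e).trans (pow_le_pow_right₀ L1 (by omega)))
  have h2 : x ≤ L ^ (3 * C + 3 + e) := hx.trans (pow_le_pow_right₀ L1 (by omega))
  have h3 : x ^ C ≤ L ^ (3 * C + 3 + e) := by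
    refine (pow_le_pow_left₀ x0 hx C).trans ?_
    rw [← pow_mul]; exact pow_le_pow_right₀ L1 (by omega)
  have h4 : (8 : ℝ) ≤ L ^ 3 := by
    have := pow_le_pow_left₀ (by norm_num) hL 3
    linarith
  have h5 : 0 ≤ L ^ (3 * C + 3 + e) := by positivity
  have h6 : c ≤ Real.exp c := by linarith [Real.add_one_le_exp c]
  refine (mul_le_mul_of_nonneg_right h6 (Real.exp_pos _).le).trans ?_
  rw [← Real.exp_add, pow_add _ _ 3]
  exact Real.exp_le_exp.2 (by nlinarith)

theorem cover_le {N : ℕ} {A : Finset ℕ} (hA : A ⊆ Icc 1 N) (y : ℕ) :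
    A.card ≤ ((range (N + 1)).filter fun a => a + y ∈ A).card + y := by
  have h1 : A ⊆ ((range (N + 1)).filter fun a => a + y ∈ A).image (· + y) ∪ range y := by
    intro x hx
    by_cases h : x < y
    · exact mem_union_right _ (mem_range.2 h)
    · have := mem_Icc.1 (hA hx)
      have e : x - y + y = x := by omega
      exact mem_union_left _ (mem_image.2 ⟨x - y, mem_filter.2
        ⟨mem_range.2 (by omega), by rw [e]; exact hx⟩, e⟩)
  refine (card_le_card h1).trans ((card_union_le _ _).trans ?_)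
  rw [card_range]
  exact Nat.add_le_add_right card_image_le _

open Classical in
theorem rich_ge {k N M d : ℕ} {ρ : ℝ} (ρ0 : 0 ≤ ρ)
    (hρ : ∀ B : Finset ℕ, B ⊆ range M → Free k B → (B.card : ℝ) ≤ ρ * M)
    {A : Finset ℕ} (hA : A ⊆ Icc 1 N) (hM : 0 < M) :
    (A.card : ℝ) ≤ M * d + (N + 1) * ρ + ((range (N + 1)).filter fun a =>
      ¬ Free k ((range M).filter fun i => a + i * d ∈ A)).card := by
  have M0 : (0 : ℝ) < M := by exact_mod_cast hM
  have h1 : M * A.card ≤ ∑ a ∈ range (N + 1), ((range M).filter fun i => a + i * d ∈ A).card +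
      M * (M * d) := by
    simp only [card_filter]
    rw [sum_comm]
    simp only [← card_filter]
    have e1 : M * A.card = ∑ _i ∈ range M, A.card := by simp
    have e2 : M * (M * d) = ∑ _i ∈ range M, M * d := by simp
    rw [e1, e2, ← sum_add_distrib]
    refine sum_le_sum fun i hi => (cover_le hA (i * d)).trans (Nat.add_le_add_left ?_ _)
    exact Nat.mul_le_mul_right _ (mem_range.1 hi).le
  have h2 : ∑ a ∈ range (N + 1), (((range M).filter fun i => a + i * d ∈ A).card : ℝ) ≤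
      ∑ a ∈ range (N + 1), (ρ * M +
        if ¬ Free k ((range M).filter fun i => a + i * d ∈ A) then (M : ℝ) else 0) := by
    refine sum_le_sum fun a _ => ?_
    split_ifs with h
    · simpa using hρ _ (filter_subset _ _) h
    · have : ((range M).filter fun i => a + i * d ∈ A).card ≤ M :=
        (card_filter_le _ _).trans (card_range M).le
      have : (((range M).filter fun i => a + i * d ∈ A).card : ℝ) ≤ M := by exact_mod_cast this
      nlinarith
  rw [sum_add_distrib, ← sum_filter, sum_const, sum_const, card_range, nsmul_eq_mul,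
    nsmul_eq_mul] at h2
  have h3 : (M : ℝ) * A.card ≤ ∑ a ∈ range (N + 1),
      (((range M).filter fun i => a + i * d ∈ A).card : ℝ) + M * (M * d) := by exact_mod_cast h1
  push_cast at h2
  exact le_of_mul_le_mul_left (by linarith) M0

open Classical in
theorem rich_le {k N M D : ℕ} (hk : 2 ≤ k) {A : Finset ℕ} (hA : A ⊆ Icc 1 N) :
    ∑ d ∈ Icc 1 D, ((range (N + 1)).filter fun a =>
      ¬ Free k ((range M).filter fun i => a + i * d ∈ A)).card ≤ (aps k N A).card * (M * M) := by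
  rw [← card_sigma]
  have h1 : ((Icc 1 D).sigma fun d => (range (N + 1)).filter fun a =>
      ¬ Free k ((range M).filter fun i => a + i * d ∈ A)) ⊆
      (aps k N A ×ˢ (range M ×ˢ range M)).image fun z =>
        (⟨z.1.2 / z.2.2, z.1.1 - z.2.1 * (z.1.2 / z.2.2)⟩ : Σ _ : ℕ, ℕ) := by
    rintro ⟨d, a⟩ h
    obtain ⟨h1, h2⟩ := mem_sigma.1 h
    have h3 := (mem_filter.1 h2).2
    unfold Free at h3
    push Not at h3
    obtain ⟨j, e, he, h4⟩ := h3
    have j1 := mem_range.1 (mem_filter.1 (h4 0 (by omega))).1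
    have j2 := mem_range.1 (mem_filter.1 (h4 1 (by omega))).1
    have d0 : 0 < d := (mem_Icc.1 h1).1
    refine mem_image.2 ⟨((a + j * d, e * d), (j, e)), mem_product.2 ⟨(mem_aps hk hA).2
      ⟨Nat.mul_pos he d0, fun i hi => ?_⟩, mem_product.2
      ⟨mem_range.2 (show j < M by omega), mem_range.2 (show e < M by omega)⟩⟩, ?_⟩
    · have := (mem_filter.1 (h4 i hi)).2
      rwa [show a + (j + i * e) * d = a + j * d + i * (e * d) by ring] at this
    · simp only [Nat.mul_div_cancel_left d he, Nat.add_sub_cancel]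
  refine (card_le_card h1).trans (card_image_le.trans ?_)
  rw [card_product, card_product, card_range]

theorem many {k C : ℕ} (hk : 2 ≤ k) (h : QP k C) : ∃ C', MANY k C' := by
  classical
  obtain ⟨C', hC⟩ := absorb 128 C
  refine ⟨C', fun L hL N hN A hA hc => ?_⟩
  have x3 : L + 3 ≤ L ^ 3 := by nlinarith [mul_nonneg (sub_nonneg.2 hL) (sub_nonneg.2 hL)]
  have h1 := hC L hL (L + 3) (by linarith) x3
  set α := Real.exp (-L) with hα
  set y := Real.exp ((L + 3) ^ C) with hy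
  have α0 : 0 < α := Real.exp_pos _
  have α1 : α ≤ 1 := Real.exp_le_one_iff.2 (by linarith)
  have y1 : 1 ≤ y := Real.one_le_exp (by positivity)
  have h2 : 128 * y ^ 3 ≤ α ^ 2 * Real.exp (L ^ C') := by
    refine le_trans ?_ (mul_le_mul_of_nonneg_left h1 (sq_nonneg α))
    rw [hy, hα, ← Real.exp_nat_mul, ← Real.exp_nat_mul, mul_left_comm, ← Real.exp_add]
    refine mul_le_mul_of_nonneg_left (Real.exp_le_exp.2 ?_) (by norm_num)
    push_cast; linarith
  set M := ⌈y⌉₊ with hM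
  have M1 : y ≤ M := Nat.le_ceil _
  have M2 : (M : ℝ) ≤ 2 * y := by linarith [Nat.ceil_lt_add_one (show 0 ≤ y by linarith)]
  have M0 : (0 : ℝ) < M := by linarith
  have N1 : (1 : ℝ) ≤ N := (Real.one_le_exp (by positivity)).trans hN
  have h3 : 4 * (M : ℝ) ≤ α * N := by
    have k1 : α ^ 2 * Real.exp (L ^ C') ≤ α * N :=
      mul_le_mul (by nlinarith) hN (Real.exp_pos _).le α0.le
    have k2 : y ≤ y ^ 3 := le_self_pow₀ y1 (by norm_num)
    linarith
  set D := ⌊α * N / (4 * M)⌋₊ with hD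
  have q1 : 1 ≤ α * N / (4 * M) := by rwa [le_div_iff₀ (by positivity), one_mul]
  have D1 : (D : ℝ) ≤ α * N / (4 * M) := Nat.floor_le (by linarith)
  have D2 : α * N / (4 * M) ≤ 2 * D := by
    have k1 := Nat.lt_floor_add_one (α * N / (4 * M))
    have k2 : (1 : ℝ) ≤ D := by exact_mod_cast Nat.le_floor (by simpa using q1)
    linarith
  rw [le_div_iff₀ (by positivity)] at D1
  rw [div_le_iff₀ (by positivity)] at D2
  have ρ1 : Real.exp (-(L + 3)) ≤ α / 8 := by
    rw [neg_add, Real.exp_add, div_eq_mul_inv]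
    refine mul_le_mul_of_nonneg_left ?_ α0.le
    rw [Real.exp_neg]
    refine inv_anti₀ (by norm_num) ?_
    have := Real.add_one_le_exp (1 : ℝ)
    rw [show (3 : ℝ) = (3 : ℕ) * 1 by norm_num, Real.exp_nat_mul]
    exact le_trans (by norm_num) (pow_le_pow_left₀ (by norm_num) this 3)
  have h4 : ∑ _d ∈ Icc 1 D, α * N / 2 ≤ ∑ d ∈ Icc 1 D, (((range (N + 1)).filter fun a =>
      ¬ Free k ((range M).filter fun i => a + i * d ∈ A)).card : ℝ) := by
    refine sum_le_sum fun d hd => ?_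
    have k1 := rich_ge (d := d) (Real.exp_pos _).le (h (L + 3) (by linarith) M M1) hA
      (by exact_mod_cast M0)
    have k2 : (d : ℝ) ≤ D := by exact_mod_cast (mem_Icc.1 hd).2
    have k3 := mul_le_mul (show (N : ℝ) + 1 ≤ 2 * N by linarith) ρ1 (Real.exp_pos _).le
      (by positivity)
    nlinarith [mul_le_mul_of_nonneg_left k2 M0.le]
  have h5 : ∑ d ∈ Icc 1 D, (((range (N + 1)).filter fun a =>
      ¬ Free k ((range M).filter fun i => a + i * d ∈ A)).card : ℝ) ≤
      (aps k N A).card * (M * M) := by exact_mod_cast rich_le (M := M) (D := D) hk hA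
  rw [sum_const, Nat.card_Icc, Nat.add_sub_cancel, nsmul_eq_mul] at h4
  have h6 := h4.trans h5
  generalize ((aps k N A).card : ℝ) = z at h6 ⊢
  have z0 : 0 ≤ z := by
    by_contra hz
    have : 0 ≤ (D : ℝ) * (α * N / 2) := by positivity
    nlinarith [mul_pos M0 M0]
  have h7 : α ^ 2 * (N : ℝ) ^ 2 ≤ 16 * (M : ℝ) ^ 3 * z := by
    have k1 := mul_le_mul_of_nonneg_right D2 (show 0 ≤ α * N by positivity)
    have k2 := mul_le_mul_of_nonneg_left h6 (show 0 ≤ 16 * (M : ℝ) by positivity)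
    nlinarith
  have h8 : (M : ℝ) ^ 3 ≤ 8 * y ^ 3 := by
    have := pow_le_pow_left₀ M0.le M2 3
    linarith [mul_pow (2 : ℝ) y 3]
  have h9 : α ^ 2 * (N : ℝ) ^ 2 ≤ α ^ 2 * (Real.exp (L ^ C') * z) := by
    nlinarith [mul_le_mul_of_nonneg_right h8 z0, mul_le_mul_of_nonneg_right h2 z0]
  have h10 := le_of_mul_le_mul_left h9 (by positivity)
  rw [Real.exp_neg, inv_mul_le_iff₀ (Real.exp_pos _)]
  exact h10

end Vale.Agent.N057
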