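import Vale.Agent.N057.Cont
import Vale.Agent.N057.Many

/-!
Counting progression-free sets of a given size with containers.
-/

open Finset

namespace Vale.Agent.N057

theorem Good.mono {P P' : Finset ℕ → Prop} {U : Finset ℕ} {f f' : ℕ} {b b' : ℝ}
    (h : Good P U f b) (hP : ∀ I, P' I → P I) (hf : f ≤ f') (hb : b ≤ b') : Good P' U f' b' := by
  obtain ⟨Φ, Ψ, h⟩ := h
  refine ⟨Φ, Ψ, fun I hU hI => ?_⟩
  obtain ⟨h1, h2, h3, h4, h5⟩ := h I hU (hP I hI)
  exact ⟨h1, h2.trans hf, h3, h4.trans hb, h5⟩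

theorem good_iter {P : Finset ℕ → Prop} (hP : ∀ I J, P I → J ⊆ I → P J) {W : Finset ℕ} {f : ℕ}
    {b γ : ℝ} (h : ∀ U, U ⊆ W → b ≤ U.card → Good P U f (U.card - γ)) (r : ℕ) :
    ∀ U, U ⊆ W → (U.card : ℝ) ≤ b + r * γ → Good P U (r * f) b := by
  have triv : ∀ (U : Finset ℕ) (g : ℕ), (U.card : ℝ) ≤ b → Good P U g b := fun U g hU =>
    ⟨fun _ => ∅, fun _ => U, fun I h1 _ => ⟨empty_subset _, by simp, Subset.rfl, hU,
      h1.trans subset_union_left, fun _ _ _ => ⟨rfl, rfl⟩⟩⟩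
  induction r with
  | zero => exact fun U _ hU => triv U _ (by simpa using hU)
  | succ r ih =>
    intro U hW hU
    by_cases hb : (U.card : ℝ) ≤ b
    · exact triv U _ hb
    obtain ⟨Φ, Ψ, h1⟩ := h U hW (not_le.1 hb).le
    have key : ∀ V : Finset ℕ, ∃ Φ Ψ : Finset ℕ → Finset ℕ, V ⊆ W → (V.card : ℝ) ≤ b + r * γ →
        ∀ I, I ⊆ V → P I → Φ I ⊆ I ∧ (Φ I).card ≤ r * f ∧ Ψ I ⊆ V ∧ ((Ψ I).card : ℝ) ≤ b ∧
        I ⊆ Ψ I ∪ Φ I ∧ ∀ J, Φ I ⊆ J → J ⊆ I → Φ J = Φ I ∧ Ψ J = Ψ I := fun V => by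
      by_cases hV : V ⊆ W ∧ (V.card : ℝ) ≤ b + r * γ
      · obtain ⟨Φ, Ψ, k⟩ := ih V hV.1 hV.2
        exact ⟨Φ, Ψ, fun _ _ => k⟩
      · exact ⟨id, id, fun k1 k2 => absurd ⟨k1, k2⟩ hV⟩
    choose Φ' Ψ' key using key
    refine ⟨fun I => Φ I ∪ Φ' (Ψ I) (I ∩ Ψ I), fun I => Ψ' (Ψ I) (I ∩ Ψ I), fun I hI hp => ?_⟩
    obtain ⟨u1, u2, u3, u4, u5, u6⟩ := h1 I hI hp
    obtain ⟨v1, v2, v3, v4, v5, v6⟩ := key (Ψ I) (u3.trans hW) (by push_cast at hU; linarith)
      (I ∩ Ψ I) inter_subset_right (hP _ _ hp inter_subset_left)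
    refine ⟨union_subset u1 (v1.trans inter_subset_left), ?_, v3.trans u3, v4, fun x hx => ?_,
      fun J j1 j2 => ?_⟩
    · have := card_union_le (Φ I) (Φ' (Ψ I) (I ∩ Ψ I))
      simp only
      nlinarith
    · rcases mem_union.1 (u5 hx) with k | k
      · rcases mem_union.1 (v5 (mem_inter.2 ⟨hx, k⟩)) with k' | k'
        · exact mem_union_left _ k'
        · exact mem_union_right _ (mem_union_right _ k')
      · exact mem_union_right _ (mem_union_left _ k)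
    · obtain ⟨k1, k2⟩ := u6 J (subset_union_left.trans j1) j2
      obtain ⟨k3, k4⟩ := v6 (J ∩ Ψ I) (subset_inter (subset_union_right.trans j1)
        (v1.trans inter_subset_right)) (inter_subset_inter_right j2)
      simp only [k1, k2, k3, k4, and_self]

theorem good_count {P : Finset ℕ → Prop} {U : Finset ℕ} {f m : ℕ} {b : ℝ} (b0 : 0 ≤ b)
    (h : Good P U f b) (𝓕 : Finset (Finset ℕ)) (hF : ∀ I ∈ 𝓕, I ⊆ U ∧ P I ∧ I.card = m) :
    (𝓕.card : ℝ) ≤ ∑ j ∈ range (f + 1),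
      (U.card : ℝ) ^ j / j.factorial * (b ^ (m - j) / (m - j).factorial) := by
  obtain ⟨Φ, Ψ, h⟩ := h
  have h1 : 𝓕.card = ∑ j ∈ range (f + 1), (𝓕.filter fun I => (Φ I).card = j).card :=
    card_eq_sum_card_fiberwise fun I hI => by
      obtain ⟨k1, k2, -⟩ := hF I hI
      exact mem_coe.2 (mem_range.2 (Nat.lt_succ_of_le (h I k1 k2).2.1))
  rw [h1, Nat.cast_sum]
  refine sum_le_sum fun j _ => ?_
  have h2 : (𝓕.filter fun I => (Φ I).card = j).card = ∑ F ∈ powersetCard j U,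
      ((𝓕.filter fun I => (Φ I).card = j).filter fun I => Φ I = F).card :=
    card_eq_sum_card_fiberwise fun I hI => by
      obtain ⟨k0, k3⟩ := mem_filter.1 (mem_coe.1 hI)
      obtain ⟨k1, k2, -⟩ := hF I k0
      exact mem_coe.2 (mem_powersetCard.2 ⟨(h I k1 k2).1.trans k1, k3⟩)
  have B0 : 0 ≤ b ^ (m - j) / (m - j).factorial := by positivity
  rw [h2, Nat.cast_sum]
  refine (sum_le_card_nsmul _ _ (b ^ (m - j) / (m - j).factorial) fun F hF' => ?_).trans ?_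
  · rcases (((𝓕.filter fun I => (Φ I).card = j).filter fun I => Φ I = F)).eq_empty_or_nonempty
      with k | ⟨I0, k⟩
    · rw [k]; simpa using B0
    have st : ∀ I ∈ (𝓕.filter fun I => (Φ I).card = j).filter fun I => Φ I = F,
        F ⊆ I ∧ I.card = m ∧ I ⊆ Ψ F ∪ F ∧ ((Ψ F).card : ℝ) ≤ b := fun I hI => by
      obtain ⟨k0, k3⟩ := mem_filter.1 hI
      obtain ⟨k1, k2, k4⟩ := hF I (mem_filter.1 k0).1
      obtain ⟨u1, -, -, u4, u5, u6⟩ := h I k1 k2
      have := (u6 (Φ I) Subset.rfl u1).2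
      rw [← this] at u4 u5
      rw [k3] at u1 u4 u5
      exact ⟨u1, k4, u5, u4⟩
    have h3 : ((𝓕.filter fun I => (Φ I).card = j).filter fun I => Φ I = F).card ≤
        (powersetCard (m - j) (Ψ F)).card := by
      refine card_le_card_of_injOn (fun I => I \ F) (fun I hI => ?_) fun I hI J hJ e => ?_
      · obtain ⟨k1, k2, k3, -⟩ := st I (mem_coe.1 hI)
        refine mem_coe.2 (mem_powersetCard.2 ⟨fun x hx => ?_, ?_⟩)
        · exact (mem_union.1 (k3 (mem_sdiff.1 hx).1)).resolve_right (mem_sdiff.1 hx).2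
        · rw [card_sdiff_of_subset k1, k2, (mem_powersetCard.1 hF').2]
      · rw [← sdiff_union_of_subset (st I (mem_coe.1 hI)).1,
          ← sdiff_union_of_subset (st J (mem_coe.1 hJ)).1]
        exact congrArg (· ∪ F) e
    rw [card_powersetCard] at h3
    refine (Nat.cast_le.2 h3).trans ((Nat.choose_le_pow_div _ _).trans ?_)
    exact div_le_div_of_nonneg_right
      (pow_le_pow_left₀ (Nat.cast_nonneg _) (st I0 k).2.2.2 _) (Nat.cast_nonneg _)
  · rw [card_powersetCard, nsmul_eq_mul]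
    exact mul_le_mul_of_nonneg_right (Nat.choose_le_pow_div _ _) B0

theorem count_num {N g : ℝ} {f m : ℕ} (N0 : 0 ≤ N) (g0 : 0 ≤ g) (g1 : g ≤ 1) (hf : 2 * f ≤ m) :
    ∑ j ∈ range (f + 1), N ^ j / j.factorial * ((g ^ 2 * N) ^ (m - j) / (m - j).factorial) ≤
      (2 * g) ^ m * (N ^ m / m.factorial) := by
  have h1 : ∑ j ∈ range (f + 1), N ^ j / j.factorial *
      ((g ^ 2 * N) ^ (m - j) / (m - j).factorial) ≤
      ∑ j ∈ range (f + 1), g ^ m * (N ^ m / m.factorial) * m.choose j := by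
    refine sum_le_sum fun j hj => ?_
    have j1 : j ≤ f := Nat.lt_succ_iff.1 (mem_range.1 hj)
    have j2 : j ≤ m := by omega
    have e1 : (m.choose j : ℝ) = m.factorial / (j.factorial * (m - j).factorial) :=
      Nat.cast_choose ℝ j2
    have e2 : N ^ m = N ^ j * N ^ (m - j) := by rw [← pow_add]; congr 1; omega
    have e3 : (g ^ 2) ^ (m - j) ≤ g ^ m := by
      rw [← pow_mul]; exact pow_le_pow_of_le_one g0 g1 (by omega)
    have e4 : g ^ m * (N ^ m / m.factorial) * m.choose j =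
        g ^ m * (N ^ j / j.factorial * (N ^ (m - j) / (m - j).factorial)) := by
      rw [e1, e2]; field_simp
    rw [e4, mul_pow, mul_div_assoc, mul_left_comm]
    exact mul_le_mul_of_nonneg_right e3 (by positivity)
  refine h1.trans ?_
  rw [← mul_sum, mul_pow, mul_comm ((2 : ℝ) ^ m), mul_assoc, mul_assoc, mul_comm ((2 : ℝ) ^ m)]
  refine mul_le_mul_of_nonneg_left (mul_le_mul_of_nonneg_left ?_ (by positivity)) (by positivity)
  have : ∑ j ∈ range (f + 1), m.choose j ≤ 2 ^ m := by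
    rw [← Nat.sum_range_choose]
    exact sum_le_sum_of_subset (range_subset_range.2 (by omega))
  exact_mod_cast this

theorem pow_div_le_choose {N m : ℕ} (h : 2 * m ≤ N) :
    (N : ℝ) ^ m / m.factorial ≤ 2 ^ m * N.choose m := by
  have h1 : (((N + 1 - m : ℕ) : ℝ)) ^ m / m.factorial ≤ N.choose m := Nat.pow_le_choose m N
  refine le_trans ?_ (mul_le_mul_of_nonneg_left h1 (by positivity))
  rw [← mul_div_assoc, ← mul_pow]
  refine div_le_div_of_nonneg_right (pow_le_pow_left₀ (Nat.cast_nonneg _) ?_ _) (Nat.cast_nonneg _)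
  exact_mod_cast (show N ≤ 2 * (N + 1 - m) by omega)

/-- the vertex set of a progression -/
def edge (k : ℕ) (x : ℕ × ℕ) : Finset ℕ := (range k).image fun i => x.1 + i * x.2

theorem mem_edge {k v : ℕ} {x : ℕ × ℕ} : v ∈ edge k x ↔ ∃ i, i < k ∧ x.1 + i * x.2 = v := by
  simp [edge]

theorem card_edge (k : ℕ) {x : ℕ × ℕ} (h : 0 < x.2) : (edge k x).card = k := by
  rw [edge, card_image_of_injective _ fun i j e => ?_, card_range]
  exact Nat.eq_of_mul_eq_mul_right h (Nat.add_left_cancel e)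

theorem dg_one {k N v : ℕ} (U : Finset ℕ) {X : Finset ℕ} (hv : v ∈ X) :
    dg (aps k N U) (edge k) X ≤ k * N := by
  have h : (aps k N U).filter (fun x => X ⊆ edge k x) ⊆
      (range k ×ˢ Icc 1 N).image fun z => (v - z.1 * z.2, z.2) := fun x hx => by
    obtain ⟨h1, h2⟩ := mem_filter.1 hx
    obtain ⟨i, h3, h4⟩ := mem_edge.1 (h2 hv)
    refine mem_image.2 ⟨(i, x.2), mem_product.2
      ⟨mem_range.2 h3, (mem_product.1 (mem_filter.1 h1).1).2⟩, ?_⟩
    rw [← h4, Nat.add_sub_cancel]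
  refine (card_le_card h).trans (card_image_le.trans ?_)
  simp

theorem dg_two {k N u v : ℕ} (U : Finset ℕ) {X : Finset ℕ} (hu : u ∈ X) (hv : v ∈ X) (h0 : u < v) :
    dg (aps k N U) (edge k) X ≤ k * k := by
  have h : (aps k N U).filter (fun x => X ⊆ edge k x) ⊆ (range k ×ˢ range k).image
      fun z => (u - z.1 * ((v - u) / (z.2 - z.1)), (v - u) / (z.2 - z.1)) := fun x hx => by
    obtain ⟨-, h2⟩ := mem_filter.1 hx
    obtain ⟨i, h3, h4⟩ := mem_edge.1 (h2 hu)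
    obtain ⟨j, h5, h6⟩ := mem_edge.1 (h2 hv)
    have h7 : i < j := by
      by_contra hn
      have := Nat.mul_le_mul_right x.2 (not_lt.1 hn)
      omega
    have h8 : v - u = (j - i) * x.2 := by rw [Nat.sub_mul]; omega
    refine mem_image.2 ⟨(i, j), mem_product.2 ⟨mem_range.2 h3, mem_range.2 h5⟩, ?_⟩
    simp only [h8]
    rw [Nat.mul_div_cancel_left _ (by omega), ← h4, Nat.add_sub_cancel]
  refine (card_le_card h).trans (card_image_le.trans ?_)
  simp

theorem dg_zero {k N : ℕ} (U : Finset ℕ) {X : Finset ℕ} (h : k < X.card) :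
    dg (aps k N U) (edge k) X = 0 := by
  refine card_eq_zero.2 (filter_eq_empty_iff.2 fun x _ h1 => ?_)
  have := (card_le_card h1).trans (card_image_le.trans (card_range k).le)
  omega

theorem ap_spread {k N : ℕ} (hk : 1 ≤ k) {U : Finset ℕ} (hU : U ⊆ Icc 1 N) {η p : ℝ} (η0 : 0 < η)
    (p0 : 0 < p) (p1 : p ≤ 1) (hp : 1 ≤ p ^ (k - 1) * N)
    (hH : η * (N : ℝ) ^ 2 ≤ (aps k N U).card) (X : Finset ℕ) (hX : X.Nonempty) :
    (dg (aps k N U) (edge k) X : ℝ) * U.card ≤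
      (k : ℝ) ^ 2 / η * p ^ (X.card - 1) * (aps k N U).card := by
  have n1 : (U.card : ℝ) ≤ N := by exact_mod_cast (card_le_card hU).trans (by simp)
  have k1 : (1 : ℝ) ≤ k := by exact_mod_cast hk
  have N0 : (0 : ℝ) ≤ N := Nat.cast_nonneg N
  have e : (k : ℝ) ^ 2 * (p ^ (X.card - 1) * (N : ℝ) ^ 2) ≤
      (k : ℝ) ^ 2 / η * p ^ (X.card - 1) * (aps k N U).card := by
    refine le_trans (le_of_eq ?_) (mul_le_mul_of_nonneg_left hH (by positivity))
    field_simp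
  refine le_trans ?_ e
  by_cases h1 : k < X.card
  · rw [dg_zero U h1, Nat.cast_zero, zero_mul]; positivity
  by_cases h2 : X.card = 1
  · obtain ⟨v, hv⟩ := hX
    have h3 : (dg (aps k N U) (edge k) X : ℝ) ≤ k * N := by exact_mod_cast dg_one U hv
    refine (mul_le_mul h3 n1 (Nat.cast_nonneg _) (by positivity)).trans ?_
    rw [h2, Nat.sub_self, pow_zero]
    nlinarith [mul_le_mul_of_nonneg_right k1 (show 0 ≤ (k : ℝ) * N * N by positivity)]
  · have h3 : (dg (aps k N U) (edge k) X : ℝ) ≤ k * k := by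
      obtain ⟨u, hu, v, hv, h4⟩ := one_lt_card.1 (show 1 < X.card by have := card_pos.2 hX; omega)
      rcases lt_or_gt_of_ne h4 with h5 | h5
      · exact_mod_cast dg_two U hu hv h5
      · exact_mod_cast dg_two U hv hu h5
    refine (mul_le_mul h3 n1 (Nat.cast_nonneg _) (by positivity)).trans ?_
    have h4 : p ^ (k - 1) ≤ p ^ (X.card - 1) := pow_le_pow_of_le_one p0.le p1 (by omega)
    have h5 := hp.trans (mul_le_mul_of_nonneg_right h4 N0)
    nlinarith [mul_le_mul_of_nonneg_left h5 (show 0 ≤ (k : ℝ) * k * N by positivity)]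

theorem ap_good {k : ℕ} (hk : 2 ≤ k) : ∃ c : ℝ, 1 ≤ c ∧ ∀ (N t r : ℕ) (β η p : ℝ), 0 < β → 0 < η →
    η ≤ 1 → 0 < p → p ≤ 1 → 1 ≤ p ^ (k - 1) * N → N * p ≤ t → c / (β * η) ≤ r →
    (∀ A : Finset ℕ, A ⊆ Icc 1 N → β * N ≤ A.card → η * (N : ℝ) ^ 2 ≤ (aps k N A).card) →
    Good (Free k) (Icc 1 N) (r * (k * t)) (β * N) := by
  obtain ⟨c, c2, hc⟩ := cont (ι := ℕ × ℕ) k
  have k1 : (1 : ℝ) ≤ k := by exact_mod_cast (show 1 ≤ k by omega)
  have k2 : (1 : ℝ) ≤ (k : ℝ) ^ 2 := one_le_pow₀ k1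
  refine ⟨c * (k : ℝ) ^ 2, by nlinarith, fun N t r β η p β0 η0 η1 p0 p1 hp ht hr hM => ?_⟩
  have N0 : (0 : ℝ) < N := by
    by_contra hn
    have : (N : ℝ) = 0 := le_antisymm (not_lt.1 hn) (Nat.cast_nonneg N)
    rw [this, mul_zero] at hp; linarith
  have K1 : 1 ≤ (k : ℝ) ^ 2 / η := by rw [le_div_iff₀ η0]; linarith
  refine good_iter (W := Icc 1 N) (γ := 1 / (c * ((k : ℝ) ^ 2 / η)) * (β * N))
    (fun I J h1 h2 => h1.mono h2) (fun U hU hb => ?_) r _ Subset.rfl ?_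
  · have n1 : (U.card : ℝ) ≤ N := by exact_mod_cast (card_le_card hU).trans (by simp)
    have h1 := hM U hU hb
    have h0 : (0 : ℝ) < (aps k N U).card := lt_of_lt_of_le (by positivity) h1
    refine (hc (aps k N U) (edge k) U ((k : ℝ) ^ 2 / η) p t K1 p0 (card_pos.1 (by
      exact_mod_cast h0)) (fun x hx => ?_)
      ((mul_le_mul_of_nonneg_right n1 p0.le).trans ht)
      (ap_spread (by omega) hU η0 p0 p1 hp h1)).mono (fun I hI x hx h2 => ?_) le_rfl ?_
    · obtain ⟨h2, h3⟩ := (mem_aps hk hU).1 hx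
      refine ⟨fun v hv => ?_, card_edge k h2⟩
      obtain ⟨i, h4, h5⟩ := mem_edge.1 hv
      exact h5 ▸ h3 i h4
    · exact hI x.1 x.2 ((mem_aps hk hU).1 hx).1 fun i hi => h2 (mem_edge.2 ⟨i, hi, rfl⟩)
    · have : 0 ≤ 1 / (c * ((k : ℝ) ^ 2 / η)) := by positivity
      nlinarith [mul_le_mul_of_nonneg_left hb this]
  · rw [Nat.card_Icc, Nat.add_sub_cancel]
    have h1 := mul_le_mul_of_nonneg_right hr
      (show 0 ≤ 1 / (c * ((k : ℝ) ^ 2 / η)) * (β * N) by positivity)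
    have h2 : c * (k : ℝ) ^ 2 / (β * η) * (1 / (c * ((k : ℝ) ^ 2 / η)) * (β * N)) = N := by
      field_simp
    have : 0 ≤ β * N := by positivity
    linarith

/-- the number of progression-free sets of size `m` -/
def COUNT (k C : ℕ) : Prop := ∀ L : ℝ, 2 ≤ L → ∀ N m : ℕ,
  Real.exp (L ^ C) * (N : ℝ) ^ (1 - 1 / ((k : ℝ) - 1)) ≤ m → ∀ 𝓕 : Finset (Finset ℕ),
    (∀ A ∈ 𝓕, A ⊆ Icc 1 N ∧ A.card = m ∧ Free k A) →
      (𝓕.card : ℝ) ≤ Real.exp (-(L * m)) * N.choose m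

theorem count {k C : ℕ} (hk : 2 ≤ k) (h : MANY k C) : ∃ C', COUNT k C' := by
  obtain ⟨c, c1, hc⟩ := ap_good hk
  obtain ⟨C', hC⟩ := absorb (8 * c * k) C
  refine ⟨C', fun L hL N m hm 𝓕 hF => ?_⟩
  rcases 𝓕.eq_empty_or_nonempty with rfl | ⟨A, hA⟩
  · rw [card_empty, Nat.cast_zero]; positivity
  obtain ⟨a1, a2, a3⟩ := hF A hA
  have mN : m ≤ N := by simpa [a2] using card_le_card a1
  rcases Nat.eq_zero_or_pos N with rfl | N0
  · obtain rfl : m = 0 := by omega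
    have : 𝓕.card ≤ 1 := card_le_one.2 fun a ha b hb => by
      rw [card_eq_zero.1 (hF a ha).2.1, card_eq_zero.1 (hF b hb).2.1]
    simpa using this
  have N1 : (1 : ℝ) ≤ N := by exact_mod_cast N0
  have k2 : (2 : ℝ) ≤ k := by exact_mod_cast hk
  have x3 : 2 * L + 4 ≤ L ^ 3 := by nlinarith [mul_nonneg (sub_nonneg.2 hL) (sub_nonneg.2 hL)]
  have h1 := hC L hL (2 * L + 4) (by linarith) x3
  set x := 2 * L + 4 with hx
  set p : ℝ := (N : ℝ) ^ (-(1 / ((k : ℝ) - 1))) with hp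
  have p0 : 0 < p := Real.rpow_pos_of_pos (by linarith) _
  have s0 : 0 < 1 / ((k : ℝ) - 1) := one_div_pos.2 (by linarith)
  have s1 : 1 / ((k : ℝ) - 1) ≤ 1 := by rw [div_le_one (by linarith)]; linarith
  have p1 : p ≤ 1 := Real.rpow_le_one_of_one_le_of_nonpos N1 (by linarith)
  have p2 : p ^ (k - 1) * N = 1 := by
    rw [hp, ← Real.rpow_natCast, ← Real.rpow_mul (by linarith), Nat.cast_sub (by omega),
      Nat.cast_one, neg_mul, one_div_mul_cancel (by linarith), Real.rpow_neg_one,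
      inv_mul_cancel₀ (by linarith)]
  have p3 : (N : ℝ) ^ (1 - 1 / ((k : ℝ) - 1)) = N * p := by
    rw [sub_eq_add_neg, Real.rpow_add (by linarith), Real.rpow_one]
  have p4 : 1 ≤ N * p := p3 ▸ Real.one_le_rpow N1 (by linarith)
  rw [p3] at hm
  have xC : 0 ≤ x ^ C := by positivity
  have ck : 1 ≤ 8 * c * k := by nlinarith
  have m1 : (m : ℝ) ≤ N := by exact_mod_cast mN
  have h2 : Real.exp (x ^ C) ≤ N := by
    have k1 : Real.exp (x ^ C) ≤ Real.exp (3 * x + 3 * x ^ C) := Real.exp_le_exp.2 (by linarith)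
    have k3 := le_mul_of_one_le_left (Real.exp_pos (3 * x + 3 * x ^ C)).le ck
    have k4 := le_mul_of_one_le_right (Real.exp_pos (L ^ C')).le p4
    linarith
  have e1 : c / (Real.exp (-x) * Real.exp (-x ^ C)) = c * Real.exp (x + x ^ C) := by
    rw [← Real.exp_add, ← neg_add, Real.exp_neg, div_inv_eq_mul]
  have y1 : 1 ≤ c * Real.exp (x + x ^ C) :=
    one_le_mul_of_one_le_of_one_le c1 (Real.one_le_exp (by linarith))
  have G := hc N ⌈N * p⌉₊ ⌈c * Real.exp (x + x ^ C)⌉₊ (Real.exp (-x)) (Real.exp (-x ^ C)) p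
    (Real.exp_pos _) (Real.exp_pos _) (Real.exp_le_one_iff.2 (by linarith)) p0 p1 p2.ge
    (Nat.le_ceil _) (e1 ▸ Nat.le_ceil _) (h x (by linarith) N h2)
  have f1 : 2 * (⌈c * Real.exp (x + x ^ C)⌉₊ * (k * ⌈N * p⌉₊)) ≤ m := by
    have k1 : (⌈N * p⌉₊ : ℝ) ≤ 2 * (N * p) := by
      linarith [Nat.ceil_lt_add_one (show 0 ≤ N * p by linarith)]
    have k3 : (⌈c * Real.exp (x + x ^ C)⌉₊ : ℝ) ≤ 2 * (c * Real.exp (3 * x + 3 * x ^ C)) := by
      have := mul_le_mul_of_nonneg_left (Real.exp_le_exp.2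
        (show x + x ^ C ≤ 3 * x + 3 * x ^ C by linarith)) (show 0 ≤ c by linarith)
      linarith [Nat.ceil_lt_add_one (show 0 ≤ c * Real.exp (x + x ^ C) by linarith)]
    have k4 := mul_le_mul k3 (mul_le_mul_of_nonneg_left k1 (show (0 : ℝ) ≤ k by linarith))
      (by positivity) (by positivity)
    have k5 := mul_le_mul_of_nonneg_right h1 (show 0 ≤ N * p by linarith)
    have k6 : (2 : ℝ) * ((⌈c * Real.exp (x + x ^ C)⌉₊ : ℝ) * (k * ⌈N * p⌉₊)) ≤ m := by nlinarith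
    exact_mod_cast k6
  generalize ⌈c * Real.exp (x + x ^ C)⌉₊ * (k * ⌈N * p⌉₊) = f at G f1
  set g := Real.exp (-(L + 2)) with hg
  have g0 : 0 < g := Real.exp_pos _
  have e2 : Real.exp (-x) = g ^ 2 := by
    rw [hg, ← Real.exp_nat_mul]; congr 1; push_cast; ring
  have g1 : 4 * g ≤ Real.exp (-L) := by
    rw [hg, neg_add, Real.exp_add, mul_comm, mul_assoc]
    refine mul_le_of_le_one_right (Real.exp_pos _).le ?_
    rw [Real.exp_neg, inv_mul_le_iff₀ (Real.exp_pos _), mul_one]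
    have := Real.add_one_le_exp (1 : ℝ)
    rw [show (2 : ℝ) = (2 : ℕ) * 1 by norm_num, Real.exp_nat_mul]
    exact le_trans (by norm_num) (pow_le_pow_left₀ (by norm_num) this 2)
  have g2 : Real.exp (-L) ≤ 1 := Real.exp_le_one_iff.2 (by linarith)
  rw [e2] at G
  have h3 : 2 * m ≤ N := by
    obtain ⟨Φ, Ψ, G⟩ := G
    obtain ⟨-, u2, -, u4, u5, -⟩ := G A a1 a3
    have k1 := (card_le_card u5).trans (card_union_le _ _)
    have k3 : ((Ψ A).card : ℝ) * 4 ≤ N := by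
      have : g ^ 2 * 4 ≤ 1 := by nlinarith
      nlinarith
    have k4 : (Ψ A).card * 4 ≤ N := by exact_mod_cast k3
    omega
  have h4 := good_count (m := m) (by positivity) G 𝓕 fun I hI =>
    ⟨(hF I hI).1, (hF I hI).2.2, (hF I hI).2.1⟩
  rw [Nat.card_Icc, Nat.add_sub_cancel] at h4
  refine h4.trans ((count_num (by linarith) g0.le (by linarith) f1).trans ?_)
  refine (mul_le_mul_of_nonneg_left (pow_div_le_choose h3) (by positivity)).trans ?_
  rw [← mul_assoc, ← mul_pow, ← neg_mul, mul_comm (-L), Real.exp_nat_mul]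
  exact mul_le_mul_of_nonneg_right (pow_le_pow_left₀ (by positivity) (by linarith) _)
    (Nat.cast_nonneg _)

end Vale.Agent.N057
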