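import Vale.Agent.N057.Count

/-!
Infinite sets: narrow progressions, and progressions relative to sparse random sets.
-/

open Finset Filter MeasureTheory ProbabilityTheory

namespace Vale.Agent.N057

theorem summable_blocks {A : Set ℕ} {w b : ℕ → ℝ} (w0 : ∀ a, 0 ≤ w a) (hb : Summable b)
    (b0 : ∀ j, 0 ≤ b j) (h : ∀ᶠ j in atTop, ∀ s : Finset ℕ,
      (∀ a ∈ s, a ∈ A ∧ 2 ^ j ≤ a ∧ a < 2 ^ (j + 1)) → ∑ a ∈ s, w a ≤ b j) :
    Summable fun a : A => w a := by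
  obtain ⟨j0, h⟩ := eventually_atTop.1 h
  refine summable_of_sum_le (c := ∑ a ∈ range (2 ^ j0), w a + ∑' j, b j) (fun a => w0 a)
    fun u => ?_
  have e : ∑ a ∈ u, w a = ∑ a ∈ u.map (Function.Embedding.subtype _), w a := by
    rw [sum_map]; rfl
  have hA : ∀ a ∈ u.map (Function.Embedding.subtype _), a ∈ A := fun a ha => by
    obtain ⟨x, -, rfl⟩ := mem_map.1 ha
    exact x.2
  rw [e]
  generalize u.map (Function.Embedding.subtype _) = s at hA
  rw [← sum_filter_add_sum_filter_not s (fun a => a < 2 ^ j0)]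
  refine add_le_add (sum_le_sum_of_subset_of_nonneg
    (fun a ha => mem_range.2 (mem_filter.1 ha).2) fun a _ _ => w0 a) ?_
  rw [← sum_fiberwise_of_maps_to (g := Nat.log 2) fun a ha => mem_image_of_mem (Nat.log 2) ha]
  refine le_trans (sum_le_sum fun j hj => ?_) (hb.sum_le_tsum _ fun j _ => b0 j)
  obtain ⟨x, hx, rfl⟩ := mem_image.1 hj
  refine h _ (Nat.le_log_of_pow_le one_lt_two (not_lt.1 (mem_filter.1 hx).2)) _ fun a ha => ?_
  obtain ⟨h1, h2⟩ := mem_filter.1 ha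
  obtain ⟨h3, h4⟩ := mem_filter.1 h1
  have h5 : a ≠ 0 := by
    have := Nat.pos_of_ne_zero (pow_ne_zero j0 (two_ne_zero))
    omega
  rw [← h2]
  exact ⟨hA a h3, Nat.pow_log_le_self 2 h5, Nat.lt_pow_succ_log_self one_lt_two a⟩

/-- the double logarithm of `2 ^ j` -/
noncomputable def yy (j : ℕ) : ℝ := Real.log (Real.log ((2 : ℝ) ^ j))

theorem exp_yy {j : ℕ} (hj : 1 ≤ j) : Real.exp (yy j) = j * Real.log 2 := by
  have : (0 : ℝ) < j := by exact_mod_cast hj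
  rw [yy, Real.log_pow, Real.exp_log (mul_pos this (Real.log_pos one_lt_two))]

theorem tendsto_yy : Tendsto yy atTop atTop :=
  Real.tendsto_log_atTop.comp (Real.tendsto_log_atTop.comp
    (tendsto_pow_atTop_atTop_of_one_lt one_lt_two))

theorem yy_le {j a : ℕ} (hj : 1 ≤ j) (h : 2 ^ j ≤ a) : yy j ≤ Real.log (Real.log a) := by
  have h1 : (2 : ℝ) ^ j ≤ a := by exact_mod_cast h
  exact Real.log_le_log (Real.log_pos (one_lt_pow₀ one_lt_two (by omega)))
    (Real.log_le_log (by positivity) h1)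

theorem ev_pow (C : ℕ) : ∀ᶠ j in atTop, Real.exp (yy j ^ C) ≤ 2 ^ j := by
  filter_upwards [tendsto_yy.eventually ((Real.tendsto_exp_div_pow_atTop C).eventually_ge_atTop 1),
    tendsto_yy.eventually_gt_atTop 0, eventually_ge_atTop 1] with j h1 h2 h3
  rw [le_div_iff₀ (pow_pos h2 C), one_mul, exp_yy h3] at h1
  refine (Real.exp_le_exp.2 h1).trans (le_of_eq ?_)
  rw [Real.exp_nat_mul, Real.exp_log two_pos]

theorem summ_b : Summable fun j : ℕ => ((j : ℝ) + 2) * Real.exp (-(3 * yy j)) := by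
  refine ((Real.summable_one_div_nat_pow.2 one_lt_two).mul_left
    (3 / Real.log 2 ^ 3)).of_norm_bounded_eventually_nat ?_
  filter_upwards [eventually_ge_atTop 1] with j hj
  have j1 : (1 : ℝ) ≤ j := by exact_mod_cast hj
  have l0 := Real.log_pos one_lt_two
  rw [Real.norm_of_nonneg (by positivity), Real.exp_neg,
    show (3 : ℝ) * yy j = (3 : ℕ) * yy j by norm_num, Real.exp_nat_mul, exp_yy hj]
  refine (mul_le_mul_of_nonneg_right (show (j : ℝ) + 2 ≤ 3 * j by linarith)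
    (by positivity)).trans (le_of_eq ?_)
  field_simp

theorem three_le {y : ℝ} (hy : 2 ≤ y) : 3 * y ≤ y ^ 3 := by
  nlinarith [mul_nonneg (sub_nonneg.2 hy) (sub_nonneg.2 hy)]

/-- sets without short progressions are sparse -/
theorem short_card {k M x n : ℕ} (hk : 2 ≤ k) (hM : 0 < M) {ρ : ℝ}
    (hρ : ∀ B : Finset ℕ, B ⊆ range M → Free k B → (B.card : ℝ) ≤ ρ * M) {s : Finset ℕ}
    (hs : ∀ a ∈ s, x ≤ a ∧ a < x + n)
    (hf : ∀ a d : ℕ, 0 < d → d < M → ¬ ∀ i : ℕ, i < k → a + i * d ∈ s) :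
    (s.card : ℝ) ≤ ((n / M + 1 : ℕ) : ℝ) * (ρ * M) := by
  have h1 : s ⊆ (range (n / M + 1)).biUnion fun q =>
      ((range M).filter fun r => x + q * M + r ∈ s).image fun r => x + q * M + r := fun a ha => by
    obtain ⟨k1, k2⟩ := hs a ha
    have e : x + (a - x) / M * M + (a - x) % M = a := by
      have := Nat.div_add_mod' (a - x) M
      omega
    refine mem_biUnion.2 ⟨(a - x) / M, mem_range.2 (Nat.lt_succ_of_le
      (Nat.div_le_div_right (by omega))), mem_image.2 ⟨(a - x) % M, mem_filter.2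
        ⟨mem_range.2 (Nat.mod_lt _ hM), by rwa [e]⟩, e⟩⟩
  have h2 : (s.card : ℝ) ≤ ∑ q ∈ range (n / M + 1),
      (((range M).filter fun r => x + q * M + r ∈ s).card : ℝ) := by
    have := (card_le_card h1).trans (card_biUnion_le.trans (sum_le_sum fun q _ => card_image_le))
    exact_mod_cast this
  refine h2.trans ((sum_le_card_nsmul _ _ (ρ * M) fun q _ => ?_).trans
    (by rw [card_range, nsmul_eq_mul]))
  refine hρ _ (filter_subset _ _) fun r d hd H => hf (x + q * M + r) d hd ?_ fun i hi => ?_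
  · have := mem_range.1 (mem_filter.1 (H 1 (by omega))).1
    omega
  · rw [add_assoc]; exact (mem_filter.1 (H i hi)).2

/-- narrow progressions -/
def NARROW (k C : ℕ) : Prop := ∀ A : Set ℕ, ¬ Summable (fun a : A => (1 : ℝ) / ((a : ℕ) : ℝ)) →
  ∀ X : ℕ, ∃ a d : ℕ, X ≤ a ∧ 0 < d ∧ (d : ℝ) ≤ Real.exp (Real.log (Real.log a) ^ C) ∧
    ∀ i : ℕ, i < k → a + i * d ∈ A

theorem narrow {k C : ℕ} (hk : 2 ≤ k) (h : QP k C) : ∃ C', NARROW k C' := by
  obtain ⟨C', hC⟩ := absorb 2 C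
  refine ⟨C', fun A hA X => ?_⟩
  by_contra hn
  push Not at hn
  refine hA (summable_blocks (w := fun a => 1 / (a : ℝ)) (fun a => by positivity) summ_b
    (fun j => by positivity) ?_)
  filter_upwards [tendsto_yy.eventually_ge_atTop 2, ev_pow C', eventually_ge_atTop 1,
    eventually_ge_atTop X] with j y2 h1 j1 jX s hs
  have h2 := hC _ y2 (3 * yy j) (by linarith) (three_le y2)
  set M := ⌈Real.exp ((3 * yy j) ^ C)⌉₊ with hM
  have z0 : 0 ≤ (3 * yy j) ^ C := by positivity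
  have z1 := Real.one_le_exp z0
  have M1 : Real.exp ((3 * yy j) ^ C) ≤ M := Nat.le_ceil _
  have M2 : (M : ℝ) ≤ Real.exp (yy j ^ C') := by
    have k1 := Nat.ceil_lt_add_one (Real.exp_pos ((3 * yy j) ^ C)).le
    have k2 : Real.exp ((3 * yy j) ^ C) ≤ Real.exp (3 * (3 * yy j) + 3 * (3 * yy j) ^ C) :=
      Real.exp_le_exp.2 (by linarith)
    linarith
  have M0 : (0 : ℝ) < M := by linarith
  have h3 := short_card (x := 2 ^ j) (n := 2 ^ j) (s := s) hk (by exact_mod_cast M0)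
    (h (3 * yy j) (by linarith) M M1) (fun a ha => by
      obtain ⟨-, k1, k2⟩ := hs a ha
      exact ⟨k1, by rwa [pow_succ, mul_two] at k2⟩) fun a d hd hM H => by
      have k1 : 2 ^ j ≤ a := by simpa using (hs _ (H 0 (by omega))).2.1
      obtain ⟨i, k2, k3⟩ := hn a d ((jX.trans Nat.lt_two_pow_self.le).trans k1) hd
        ((Nat.cast_le.2 hM.le).trans (M2.trans (Real.exp_le_exp.2
          (pow_le_pow_left₀ (by linarith) (yy_le j1 k1) _))))
      exact k3 (hs _ (H i k2)).1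
  have h4 : ((2 ^ j / M + 1 : ℕ) : ℝ) * M ≤ 2 * 2 ^ j := by
    have k1 : ((2 ^ j / M * M : ℕ) : ℝ) ≤ ((2 ^ j : ℕ) : ℝ) := Nat.cast_le.2 (Nat.div_mul_le_self _ _)
    push_cast at k1 ⊢
    linarith
  have p0 : (0 : ℝ) < 2 ^ j := by positivity
  refine (sum_le_card_nsmul _ _ (1 / (2 : ℝ) ^ j) fun a ha => ?_).trans ?_
  · exact one_div_le_one_div_of_le p0 (by exact_mod_cast (hs a ha).2.1)
  · rw [nsmul_eq_mul, mul_one_div, div_le_iff₀ p0]
    have j0 : (0 : ℝ) ≤ j := Nat.cast_nonneg j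
    have e0 := Real.exp_pos (-(3 * yy j))
    nlinarith [mul_le_mul_of_nonneg_left h4 e0.le, mul_nonneg j0 (mul_pos e0 p0).le]

theorem bad_le {k C : ℕ} (h : COUNT k C) {L q : ℝ} (hL : 2 ≤ L) (q0 : 0 ≤ q) {N m : ℕ}
    (h1 : 6 * (Real.exp (-L) * N * q) ≤ m)
    (h2 : Real.exp (L ^ C) * (N : ℝ) ^ (1 - 1 / ((k : ℝ) - 1)) ≤ m) (h3 : Real.exp L ≤ m)
    (𝓕 : Finset (Finset ℕ)) (hF : ∀ A ∈ 𝓕, A ⊆ Icc 1 N ∧ A.card = m ∧ Free k A) :
    (𝓕.card : ℝ) * q ^ m ≤ Real.exp (-L) := by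
  have h4 := mul_le_mul_of_nonneg_right ((h L hL N m h2 𝓕 hF).trans (mul_le_mul_of_nonneg_left
    (Nat.choose_le_pow_div m N) (Real.exp_pos _).le)) (pow_nonneg q0 m)
  refine h4.trans ?_
  have e : Real.exp (-(L * m)) * ((N : ℝ) ^ m / m.factorial) * q ^ m =
      (1 / 6) ^ m * ((6 * (Real.exp (-L) * N * q)) ^ m / m.factorial) := by
    rw [← neg_mul, mul_comm (-L), Real.exp_nat_mul, ← mul_div_assoc, ← mul_div_assoc, ← mul_pow,
      ← mul_pow, div_mul_eq_mul_div, ← mul_pow]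
    congr 2; ring
  have h5 : (6 * (Real.exp (-L) * N * q)) ^ m / m.factorial ≤ 3 ^ m := by
    refine (Real.pow_div_factorial_le_exp _ (by positivity) m).trans
      ((Real.exp_le_exp.2 h1).trans ?_)
    rw [← mul_one (m : ℝ), Real.exp_nat_mul]
    exact pow_le_pow_left₀ (Real.exp_pos _).le (by linarith [Real.exp_one_lt_d9]) _
  rw [e]
  refine (mul_le_mul_of_nonneg_left h5 (by positivity)).trans ?_
  rw [← mul_pow, show (1 / 6 * 3 : ℝ) = 2⁻¹ by norm_num, inv_pow, Real.exp_neg]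
  refine inv_anti₀ (Real.exp_pos _) (h3.trans ?_)
  exact_mod_cast Nat.lt_two_pow_self.le

theorem bc {Ω : Type} [MeasurableSpace Ω] (P : Measure Ω) [IsFiniteMeasure P] (s : ℕ → Set Ω)
    {b : ℕ → ℝ} (hb : Summable b) (h : ∀ᶠ j in atTop, P.real (s j) ≤ b j) :
    ∀ᵐ ω ∂P, ∀ᶠ j in atTop, ω ∉ s j := by
  have h1 : Summable fun j => P.real (s j) := hb.of_norm_bounded_eventually_nat
    (h.mono fun j hj => by rwa [Real.norm_of_nonneg measureReal_nonneg])
  refine ae_eventually_notMem ?_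
  simpa only [ofReal_measureReal (measure_ne_top P _)] using h1.tsum_ofReal_ne_top

/-- progressions relative to a random set -/
def RANDOM (k C : ℕ) : Prop := ∀ (Ω : Type) [MeasurableSpace Ω] (P : Measure Ω)
  [IsProbabilityMeasure P] (E : ℕ → Set Ω), iIndepSet E P →
  (∀ᶠ n : ℕ in atTop, Real.exp (Real.log (Real.log n) ^ C) * (n : ℝ) ^ (-(1 / ((k : ℝ) - 1))) ≤
    P.real (E n)) → ∀ᵐ ω ∂P, ∀ A : Set ℕ, (∀ a ∈ A, ω ∈ E a) →
      ¬ Summable (fun a : A => (1 : ℝ) / ((a : ℕ) * P.real (E a))) →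
      ∃ a d : ℕ, 0 < d ∧ ∀ i : ℕ, i < k → a + i * d ∈ A

theorem random {k C : ℕ} (hk : 2 ≤ k) (h : COUNT k C) : ∃ C', RANDOM k C' := by
  classical
  obtain ⟨C', hC⟩ := absorb 1 C
  refine ⟨C', fun Ω _ P _ E hE hp => ?_⟩
  obtain ⟨n0, hp⟩ := eventually_atTop.1 hp
  have k2 : (2 : ℝ) ≤ k := by exact_mod_cast hk
  have s0 : 0 < 1 / ((k : ℝ) - 1) := one_div_pos.2 (by linarith)
  have s1 : 1 / ((k : ℝ) - 1) ≤ 1 := by rw [div_le_one (by linarith)]; linarith
  set σ := 1 / ((k : ℝ) - 1) with hσ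
  have hcl : ∀ a, ∃ i : ℕ, 0 < P.real (E a) →
      (1 / 2 : ℝ) ^ (i + 1) < P.real (E a) ∧ P.real (E a) ≤ (1 / 2) ^ i := fun a => by
    by_cases h0 : 0 < P.real (E a)
    · obtain ⟨i, hi⟩ := exists_nat_pow_near_of_lt_one h0 measureReal_le_one
        (show (0 : ℝ) < 1 / 2 by norm_num) (by norm_num)
      exact ⟨i, fun _ => hi⟩
    · exact ⟨0, fun h1 => absurd h1 h0⟩
  choose cl hcl using hcl
  set z : ℕ → ℕ → ℝ := fun j i => 6 * (Real.exp (-(3 * yy j)) * (2 ^ (j + 1) : ℕ) * (1 / 2) ^ i)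
    with hz
  set 𝓕 : ℕ → ℕ → Finset (Finset ℕ) := fun j i => (powersetCard ⌈z j i⌉₊
    ((Ico (2 ^ j) (2 ^ (j + 1))).filter fun a => cl a = i)).filter (Free k) with h𝓕
  have low : ∀ j, 2 ≤ yy j → 1 ≤ j → n0 ≤ j → ∀ a, 2 ^ j ≤ a → a < 2 ^ (j + 1) →
      Real.exp (yy j ^ C') * ((2 ^ (j + 1) : ℕ) : ℝ) ^ (-σ) ≤ P.real (E a) :=
    fun j y2 j1 j2 a a1 a2 => by
      refine le_trans (mul_le_mul (Real.exp_le_exp.2 (pow_le_pow_left₀ (by linarith)
        (yy_le j1 a1) _)) ?_ (by positivity) (Real.exp_pos _).le)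
        (hp a ((j2.trans Nat.lt_two_pow_self.le).trans a1))
      refine Real.rpow_le_rpow_of_nonpos ?_ (Nat.cast_le.2 a2.le) (by linarith)
      exact_mod_cast lt_of_lt_of_le (Nat.two_pow_pos j) a1
  have hb := bc P (fun j => ⋃ i ∈ range (j + 2), ⋃ S ∈ 𝓕 j i, ⋂ a ∈ S, E a) summ_b (by
    filter_upwards [tendsto_yy.eventually_ge_atTop 2, eventually_ge_atTop 1,
      eventually_ge_atTop n0] with j y2 j1 j2
    refine (measureReal_biUnion_finset_le _ _).trans ((sum_le_card_nsmul _ _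
      (Real.exp (-(3 * yy j))) fun i _ => ?_).trans (by rw [card_range, nsmul_eq_mul]; norm_num))
    rcases (𝓕 j i).eq_empty_or_nonempty with h0 | ⟨S, hS⟩
    · rw [h0]; simpa using (Real.exp_pos _).le
    have mem : ∀ T ∈ 𝓕 j i, T.card = ⌈z j i⌉₊ ∧ Free k T ∧
        ∀ a ∈ T, 2 ^ j ≤ a ∧ a < 2 ^ (j + 1) ∧ P.real (E a) ≤ (1 / 2) ^ i := fun T hT => by
      obtain ⟨t1, t2⟩ := mem_filter.1 hT
      obtain ⟨t3, t4⟩ := mem_powersetCard.1 t1
      refine ⟨t4, t2, fun a ha => ?_⟩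
      obtain ⟨t5, t6⟩ := mem_filter.1 (t3 ha)
      obtain ⟨t7, t8⟩ := mem_Ico.1 t5
      exact ⟨t7, t8, t6 ▸ (hcl a (lt_of_lt_of_le (by positivity) (low j y2 j1 j2 a t7 t8))).2⟩
    have z0 : 0 < z j i := by simp only [hz]; positivity
    obtain ⟨a, ha⟩ : S.Nonempty := card_pos.1 (by rw [(mem S hS).1]; exact Nat.ceil_pos.2 z0)
    obtain ⟨a1, a2, a3⟩ := (mem S hS).2.2 a ha
    have N1 : (1 : ℝ) ≤ ((2 ^ (j + 1) : ℕ) : ℝ) := by exact_mod_cast Nat.two_pow_pos (j + 1)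
    have h1 := (low j y2 j1 j2 a a1 a2).trans a3
    have h2 := hC _ y2 (3 * yy j) (by linarith) (three_le y2)
    have h3 : 1 ≤ ((2 ^ (j + 1) : ℕ) : ℝ) ^ (1 - σ) := Real.one_le_rpow N1 (by linarith)
    have x0 : 0 ≤ (3 * yy j) ^ C := by positivity
    have h4 : Real.exp (3 * yy j + (3 * yy j) ^ C) * ((2 ^ (j + 1) : ℕ) : ℝ) ^ (1 - σ) ≤
        ⌈z j i⌉₊ := by
      refine le_trans ?_ (Nat.le_ceil _)
      have k1 : Real.exp (3 * yy j + (3 * yy j) ^ C) ≤
          Real.exp (-(3 * yy j)) * Real.exp (yy j ^ C') := by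
        refine le_trans ?_ (mul_le_mul_of_nonneg_left h2 (Real.exp_pos _).le)
        rw [one_mul, ← Real.exp_add]
        exact Real.exp_le_exp.2 (by linarith)
      have k3 := mul_le_mul_of_nonneg_left h1
        (show 0 ≤ Real.exp (-(3 * yy j)) * ((2 ^ (j + 1) : ℕ) : ℝ) by positivity)
      refine (mul_le_mul_of_nonneg_right k1 (by linarith)).trans ?_
      rw [sub_eq_add_neg, Real.rpow_add (by linarith), Real.rpow_one]
      simp only [hz] at z0 ⊢
      linarith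
    refine (measureReal_biUnion_finset_le _ _).trans ((sum_le_card_nsmul _ _
      (((1 / 2 : ℝ) ^ i) ^ ⌈z j i⌉₊) fun T hT => ?_).trans ?_)
    · rw [measureReal_def, hE.meas_biInter, ENNReal.toReal_prod, ← (mem T hT).1, ← prod_const]
      exact prod_le_prod (fun a _ => ENNReal.toReal_nonneg) fun a ha => ((mem T hT).2.2 a ha).2.2
    · rw [nsmul_eq_mul]
      refine bad_le h (N := 2 ^ (j + 1)) (by linarith) (by positivity) (Nat.le_ceil _)
        (le_trans (mul_le_mul_of_nonneg_right (Real.exp_le_exp.2 (by linarith)) (by linarith)) h4)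
        (le_trans ((Real.exp_le_exp.2 (by linarith)).trans
          (le_mul_of_one_le_right (Real.exp_pos _).le h3)) h4) _ fun T hT =>
        ⟨fun a ha => ?_, (mem T hT).1, (mem T hT).2.1⟩
      obtain ⟨t1, t2, -⟩ := (mem T hT).2.2 a ha
      exact mem_Icc.2 ⟨(Nat.two_pow_pos j).trans_le t1, t2.le⟩)
  filter_upwards [hb] with ω hω A hA hs
  by_contra hn
  push Not at hn
  refine hs (summable_blocks (w := fun a => 1 / ((a : ℝ) * P.real (E a)))
    (fun a => by positivity) (summ_b.mul_left 24) (fun j => by positivity) ?_)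
  filter_upwards [hω, tendsto_yy.eventually_ge_atTop 2, eventually_ge_atTop 1,
    eventually_ge_atTop n0] with j h1 y2 j1 j2 s hs
  have N1 : (1 : ℝ) ≤ ((2 ^ (j + 1) : ℕ) : ℝ) := by exact_mod_cast Nat.two_pow_pos (j + 1)
  have pl : ∀ a ∈ s, (1 / 2 : ℝ) ^ (j + 1) ≤ P.real (E a) := fun a ha => by
    refine le_trans ?_ (low j y2 j1 j2 a (hs a ha).2.1 (hs a ha).2.2)
    refine le_trans ?_ (le_mul_of_one_le_left (by positivity) (Real.one_le_exp (by positivity)))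
    refine le_trans (le_of_eq ?_) (Real.rpow_le_rpow_of_exponent_le N1 (neg_le_neg s1))
    rw [Real.rpow_neg_one, one_div, inv_pow]; norm_num
  have p0 : ∀ a ∈ s, 0 < P.real (E a) := fun a ha => lt_of_lt_of_le (by positivity) (pl a ha)
  rw [← sum_fiberwise_of_maps_to (g := cl) (t := range (j + 2)) fun a ha => mem_range.2
    (Nat.lt_succ_of_le ((pow_le_pow_iff_right_of_lt_one₀ (show (0 : ℝ) < 1 / 2 by norm_num)
      (by norm_num)).1 ((pl a ha).trans (hcl a (p0 a ha)).2)))]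
  refine (sum_le_card_nsmul _ _ (24 * Real.exp (-(3 * yy j))) fun i hi => ?_).trans
    (by rw [card_range, nsmul_eq_mul]; push_cast; linarith)
  have h2 : ((s.filter fun a => cl a = i).card : ℝ) ≤ z j i := by
    by_contra hc
    obtain ⟨T, t1, t2⟩ := exists_subset_card_eq (Nat.ceil_le.2 (not_le.1 hc).le)
    refine h1 (Set.mem_iUnion₂.2 ⟨i, hi, Set.mem_iUnion₂.2 ⟨T, mem_filter.2 ⟨mem_powersetCard.2
      ⟨fun a ha => ?_, t2⟩, fun a d hd H => ?_⟩, Set.mem_iInter₂.2 fun a ha => ?_⟩⟩)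
    · obtain ⟨t3, t4⟩ := mem_filter.1 (t1 ha)
      exact mem_filter.2 ⟨mem_Ico.2 (hs a t3).2, t4⟩
    · obtain ⟨x, t3, t4⟩ := hn a d hd
      exact t4 (hs _ (mem_filter.1 (t1 (H x t3))).1).1
    · exact hA a (hs a (mem_filter.1 (t1 ha)).1).1
  refine (sum_le_card_nsmul _ _ (1 / ((2 : ℝ) ^ j * (1 / 2) ^ (i + 1))) fun a ha => ?_).trans ?_
  · obtain ⟨t3, t4⟩ := mem_filter.1 ha
    refine one_div_le_one_div_of_le (by positivity) (mul_le_mul ?_ ?_ (by positivity)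
      (Nat.cast_nonneg _))
    · exact_mod_cast (hs a t3).2.1
    · exact t4 ▸ (hcl a (p0 a t3)).1.le
  · rw [nsmul_eq_mul]
    refine (mul_le_mul_of_nonneg_right h2 (by positivity)).trans (le_of_eq ?_)
    simp only [hz]
    push_cast
    field_simp
    ring

end Vale.Agent.N057
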