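import Vale.Agent.N057.Sharp
import Vale.Agent.P057ZZ.All

/-!
One exponent for all the statements.
-/

open Finset Filter MeasureTheory ProbabilityTheory

namespace Vale.Agent.N057

theorem qp {k : ℕ} (hk : 3 ≤ k) : ∃ C, QP k C := by
  obtain ⟨c, c0, N₀, h⟩ := P057ZZ.result_all k hk
  obtain ⟨C₀, hC⟩ := exists_nat_ge (1 / c)
  refine ⟨C₀ + N₀, fun L hL M hM B hB hF => ?_⟩
  have L1 : 1 ≤ L := by linarith
  have M0 : (0 : ℝ) < M := (Real.exp_pos _).trans_le hM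
  have h1 : N₀ ≤ M := by
    have k1 : (N₀ : ℝ) ≤ 2 ^ N₀ := by exact_mod_cast Nat.lt_two_pow_self.le
    have k2 : (2 : ℝ) ^ N₀ ≤ L ^ (C₀ + N₀) :=
      (pow_le_pow_left₀ (by norm_num) hL _).trans (pow_le_pow_right₀ L1 (by omega))
    have k3 := Real.add_one_le_exp (L ^ (C₀ + N₀))
    exact_mod_cast (show (N₀ : ℝ) ≤ M by linarith)
  have h2 := h M h1 (B.image (· + 1)) (fun x hx => by
    obtain ⟨y, hy, rfl⟩ := mem_image.1 hx
    have := mem_range.1 (hB hy)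
    exact mem_Icc.2 ⟨by omega, by omega⟩) fun a d hd H => by
      obtain ⟨y, -, hy⟩ := mem_image.1 (H 0 (by omega))
      refine hF y d hd fun i hi => ?_
      obtain ⟨z, h3, h4⟩ := mem_image.1 (H i hi)
      rwa [show y + i * d = z by omega]
  rw [card_image_of_injective _ (add_left_injective 1), mul_comm] at h2
  refine h2.trans (mul_le_mul_of_nonneg_right (Real.exp_le_exp.2 (neg_le_neg ?_)) M0.le)
  refine le_trans ?_ (Real.rpow_le_rpow (by positivity) ((Real.le_log_iff_exp_le M0).2 hM) c0.le)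
  rw [← Real.rpow_natCast, ← Real.rpow_mul (by linarith)]
  refine le_trans (Real.rpow_one L).ge (Real.rpow_le_rpow_of_exponent_le L1 ?_)
  rw [div_le_iff₀ c0] at hC
  push_cast
  nlinarith [mul_nonneg (Nat.cast_nonneg (α := ℝ) N₀) c0.le]

theorem one_le_loglog {a : ℕ} (h : 16 ≤ a) : 1 ≤ Real.log (Real.log a) := by
  refine le_trans ?_ (yy_le (j := 4) (by norm_num) h)
  rw [← Real.exp_le_exp, exp_yy (by norm_num)]
  push_cast
  linarith [Real.exp_one_lt_d9, Real.log_two_gt_d9]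

theorem all {k : ℕ} (hk : 3 ≤ k) :
    ∃ C, NARROW k C ∧ MANY k C ∧ COUNT k C ∧ RANDOM k C := by
  obtain ⟨C₀, h0⟩ := qp hk
  obtain ⟨C₁, h1⟩ := narrow (by omega) h0
  obtain ⟨C₂, h2⟩ := many (by omega) h0
  obtain ⟨C₃, h3⟩ := count (by omega) h2
  obtain ⟨C₄, h4⟩ := random (by omega) h3
  have pw : ∀ {x : ℝ} {i : ℕ}, 1 ≤ x → i ≤ C₁ + C₂ + C₃ + C₄ →
      Real.exp (x ^ i) ≤ Real.exp (x ^ (C₁ + C₂ + C₃ + C₄)) := fun hx hi =>
    Real.exp_le_exp.2 (pow_le_pow_right₀ hx hi)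
  refine ⟨C₁ + C₂ + C₃ + C₄, fun A hA X => ?_, fun L hL N hN A hA hc => ?_,
    fun L hL N m hm => ?_, fun Ω _ P _ E hE hp => ?_⟩
  · obtain ⟨a, d, k1, k2, k3, k4⟩ := h1 A hA (X + 16)
    exact ⟨a, d, by omega, k2, k3.trans (pw (one_le_loglog (by omega)) (by omega)), k4⟩
  · refine le_trans (mul_le_mul_of_nonneg_right (Real.exp_le_exp.2 (neg_le_neg
      (pow_le_pow_right₀ (by linarith) (by omega)))) (sq_nonneg _))
      (h2 L hL N ((pw (by linarith) (by omega)).trans hN) A hA hc)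
  · exact h3 L hL N m ((mul_le_mul_of_nonneg_right (pw (by linarith) (by omega))
      (by positivity)).trans hm)
  · refine h4 Ω P E hE ?_
    filter_upwards [hp, eventually_ge_atTop 16] with n k1 k2
    exact (mul_le_mul_of_nonneg_right (pw (one_le_loglog k2) (by omega)) (by positivity)).trans k1

theorem ncard_aps {k N : ℕ} (hk : 2 ≤ k) {A : Finset ℕ} (hA : A ⊆ Icc 1 N) :
    Set.ncard {x : ℕ × ℕ | 0 < x.2 ∧ ∀ i : ℕ, i < k → x.1 + i * x.2 ∈ A} = (aps k N A).card := by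
  rw [← Set.ncard_coe_finset]
  congr 1
  ext x
  rw [mem_coe, mem_aps hk hA]; rfl

end Vale.Agent.N057
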