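import Vale.Agent.N057.Inf

/-!
Sharpness: the exponent in the narrow progressions, and the density of the random set.
-/

open Finset Filter MeasureTheory ProbabilityTheory

namespace Vale.Agent.N057

/-- separated blocks -/
def blk (j : ℕ) : Finset ℕ := Ico (8 * 4 ^ j) (10 * 4 ^ j)

theorem four_pow_lt {i l : ℕ} (h : i < l) : 4 * 4 ^ i ≤ 4 ^ l := by
  rw [← pow_succ']; exact Nat.pow_le_pow_right (by norm_num) h

theorem blk_eq {a i j : ℕ} (hi : a ∈ blk i) (hj : a ∈ blk j) : i = j := by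
  obtain ⟨h1, h2⟩ := mem_Ico.1 hi
  obtain ⟨h3, h4⟩ := mem_Ico.1 hj
  rcases lt_trichotomy i j with h | h | h
  · have := four_pow_lt h; omega
  · exact h
  · have := four_pow_lt h; omega

theorem blk_three {a d i j l : ℕ} (ha : a ∈ blk j) (hb : a + d ∈ blk i) (hc : a + 2 * d ∈ blk l) :
    i = j ∧ l = j := by
  obtain ⟨h1, h2⟩ := mem_Ico.1 ha
  obtain ⟨h3, h4⟩ := mem_Ico.1 hb
  obtain ⟨h5, h6⟩ := mem_Ico.1 hc
  have e : l = j := by
    rcases lt_trichotomy j l with h | h | h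
    · have k1 := four_pow_lt h
      rcases lt_trichotomy i l with k | k | k
      · have := four_pow_lt k; omega
      · subst k; omega
      · have := four_pow_lt k; omega
    · exact h.symm
    · have := four_pow_lt h; omega
  subst e
  exact ⟨blk_eq hb (mem_Ico.2 ⟨by omega, by omega⟩), rfl⟩

theorem summable_of_blk {A : Set ℕ} {w : ℕ → ℝ} (w0 : ∀ a, 0 ≤ w a) (t : ℕ → Finset ℕ)
    (ht : ∀ j, ∀ a ∈ t j, a ∈ blk j ∧ a ∈ A) (h : Summable fun a : A => w a) :
    Summable fun j => ∑ a ∈ t j, w a := by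
  have h1 : Summable (A.indicator w) := summable_subtype_iff_indicator.1 h
  refine summable_of_sum_le (c := ∑' a, A.indicator w a) (fun j => sum_nonneg fun a _ => w0 a)
    fun u => ?_
  rw [← sum_biUnion fun i _ j _ hij => disjoint_left.2 fun a h2 h3 =>
    hij (blk_eq (ht i a h2).1 (ht j a h3).1)]
  refine le_trans (sum_le_sum fun a ha => ?_)
    (h1.sum_le_tsum _ fun a _ => Set.indicator_nonneg (fun a _ => w0 a) a)
  obtain ⟨j, -, h2⟩ := mem_biUnion.1 ha
  rw [Set.indicator_of_mem (ht j a h2).2]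

theorem quo_eq {M q q' s s' d : ℕ} (h1 : s < M) (h2 : s' < M) (h3 : d < M)
    (h : q * (2 * M) + s + d = q' * (2 * M) + s') : q = q' := by
  rcases lt_trichotomy q q' with k | k | k
  · have := Nat.mul_le_mul_right (2 * M) (Nat.succ_le_of_lt k)
    rw [Nat.succ_mul] at this; omega
  · exact k
  · have := Nat.mul_le_mul_right (2 * M) (Nat.succ_le_of_lt k)
    rw [Nat.succ_mul] at this; omega

theorem beh_num {u : ℝ} {M j : ℕ} (u0 : 0 ≤ u) (hM : M = ⌊Real.exp (u ^ 2 / 16)⌋₊ + 1)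
    (e1 : Real.exp (u ^ 2) ≤ 2 ^ (2 * j + 4)) (j1 : 1 ≤ j) :
    M ≤ 4 ^ j ∧ Real.exp (-4) * Real.exp (-u) ≤ Real.exp (-4 * √(Real.log M)) := by
  have z1 : 1 ≤ Real.exp (u ^ 2 / 16) := Real.one_le_exp (by positivity)
  have h1 : (M : ℝ) ≤ 2 * Real.exp (u ^ 2 / 16) := by
    have := Nat.floor_le (Real.exp_pos (u ^ 2 / 16)).le
    rw [hM]; push_cast; linarith
  have M0 : (0 : ℝ) < M := by rw [hM]; positivity
  constructor
  · have h2 : Real.exp (u ^ 2 / 16) ≤ 2 ^ j := by
      refine le_of_pow_le_pow_left₀ (n := 16) (by norm_num) (by positivity) ?_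
      rw [← Real.exp_nat_mul, ← pow_mul]
      refine le_trans (le_of_eq (by congr 1; push_cast; ring)) (e1.trans ?_)
      exact pow_le_pow_right₀ one_le_two (by omega)
    have h3 : (2 : ℝ) * 2 ^ j ≤ 4 ^ j := by
      rw [show (4 : ℝ) = 2 ^ 2 by norm_num, ← pow_mul, ← pow_succ']
      exact pow_le_pow_right₀ one_le_two (by omega)
    have h4 : (M : ℝ) ≤ 4 ^ j := by linarith
    exact_mod_cast h4
  · rw [← Real.exp_add]
    refine Real.exp_le_exp.2 ?_
    have h2 : √(Real.log M) ≤ 1 + u / 4 := by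
      refine Real.sqrt_le_iff.2 ⟨by linarith, (Real.log_le_log M0 h1).trans ?_⟩
      rw [Real.log_mul two_ne_zero (Real.exp_pos _).ne', Real.log_exp]
      nlinarith [Real.log_two_lt_d9]
    linarith

theorem narrow_sharp : ∃ A : Set ℕ, (∀ a ∈ A, 0 < a) ∧
    ¬ Summable (fun a : A => (1 : ℝ) / ((a : ℕ) : ℝ)) ∧ ∀ a d : ℕ, 0 < d →
      (d : ℝ) ≤ Real.exp (Real.log (Real.log a) ^ 2 / 16) → ¬ ∀ i : ℕ, i < 3 → a + i * d ∈ A := by
  set M : ℕ → ℕ := fun j => ⌊Real.exp (yy (2 * j + 4) ^ 2 / 16)⌋₊ + 1 with hM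
  choose S S1 S2 S3 using fun j => rothNumberNat_spec (M j)
  set t : ℕ → Finset ℕ := fun j => (range (4 ^ j / M j) ×ˢ S j).image
    fun z => 8 * 4 ^ j + (z.1 * (2 * M j) + z.2) with ht
  have mem : ∀ j, ∀ a ∈ t j, a ∈ blk j ∧ ∃ q, ∃ s ∈ S j, a = 8 * 4 ^ j + (q * (2 * M j) + s) :=
    fun j a ha => by
      obtain ⟨⟨q, s⟩, h1, rfl⟩ := mem_image.1 ha
      obtain ⟨h2, h3⟩ := mem_product.1 h1
      refine ⟨mem_Ico.2 ⟨Nat.le_add_right _ _, ?_⟩, q, s, h3, rfl⟩
      have k1 := mem_range.1 (S1 j h3)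
      have k2 := Nat.mul_le_mul_right (M j) (Nat.succ_le_of_lt (mem_range.1 h2))
      have k3 := Nat.div_mul_le_self (4 ^ j) (M j)
      have k4 : q * (2 * M j) = 2 * (q * M j) := by ring
      rw [Nat.succ_mul] at k2
      simp only at k1 k2 ⊢
      omega
  refine ⟨{a | ∃ j, a ∈ t j}, fun a ⟨j, ha⟩ => ?_, fun hs => ?_, fun a d hd h1 H => ?_⟩
  · have := (mem_Ico.1 (mem j a ha).1).1
    have := Nat.pos_of_ne_zero (pow_ne_zero j (show 4 ≠ 0 by norm_num))
    omega
  · have h1 := summable_of_blk (w := fun a => 1 / (a : ℝ)) (fun a => by positivity) t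
      (fun j a ha => ⟨(mem j a ha).1, Exists.intro j ha⟩) hs
    refine Real.not_summable_one_div_natCast ((summable_nat_add_iff 2).1
      ((h1.mul_left (40 * Real.exp 4)).of_norm_bounded_eventually_nat ?_))
    have tt : Tendsto (fun j : ℕ => 2 * j + 4) atTop atTop :=
      tendsto_atTop_mono (fun j => by show j ≤ 2 * j + 4; omega) tendsto_id
    filter_upwards [tt.eventually (ev_pow 2), tt.eventually (tendsto_yy.eventually_ge_atTop 0),
      eventually_ge_atTop 1] with j e1 e2 j1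
    have e3 := exp_yy (show 1 ≤ 2 * j + 4 by omega)
    obtain ⟨m1, m2⟩ := beh_num (M := M j) e2 rfl e1 j1
    have M0 : 0 < M j := Nat.succ_pos _
    have c1 : (t j).card = 4 ^ j / M j * (S j).card := by
      rw [ht, card_image_of_injOn, card_product, card_range]
      rintro ⟨q, s⟩ h2 ⟨q', s'⟩ h3 e
      have r0 := mem_range.1 (S1 j (mem_product.1 (mem_coe.1 h2)).2)
      have r1 := mem_range.1 (S1 j (mem_product.1 (mem_coe.1 h3)).2)
      simp only at e r0 r1
      obtain rfl : q = q' := quo_eq (d := 0) r0 r1 M0 (by omega)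
      obtain rfl : s = s' := by omega
      rfl
    have c2 : (4 : ℝ) ^ j ≤ 2 * ((4 ^ j / M j : ℕ) * M j) := by
      have k1 := Nat.div_add_mod' (4 ^ j) (M j)
      have k2 := Nat.mod_lt (4 ^ j) M0
      have k3 := Nat.mul_le_mul_right (M j) ((Nat.le_div_iff_mul_le M0).2 (by omega : 1 * M j ≤ 4 ^ j))
      exact_mod_cast (show 4 ^ j ≤ 2 * (4 ^ j / M j * M j) by omega)
    have c3 := Behrend.roth_lower_bound (N := M j)
    rw [← S2 j] at c3
    have c4 : (t j).card * (1 / (10 * (4 : ℝ) ^ j)) ≤ ∑ a ∈ t j, 1 / (a : ℝ) := by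
      rw [← nsmul_eq_mul]
      refine card_nsmul_le_sum _ _ _ fun a ha => ?_
      obtain ⟨b1, b2⟩ := mem_Ico.1 (mem j a ha).1
      have := Nat.pos_of_ne_zero (pow_ne_zero j (show 4 ≠ 0 by norm_num))
      exact one_div_le_one_div_of_le (by exact_mod_cast (show 0 < a by omega))
        (by exact_mod_cast b2.le)
    have c5 : (4 : ℝ) ^ j * (Real.exp (-4) * Real.exp (-yy (2 * j + 4))) ≤ 2 * (t j).card := by
      rw [c1, Nat.cast_mul]
      have k1 := mul_le_mul c2 m2 (by positivity) (by positivity)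
      have k2 := mul_le_mul_of_nonneg_left c3 (Nat.cast_nonneg (α := ℝ) (4 ^ j / M j))
      linarith
    have c6 : 1 / (2 * ((j : ℝ) + 2)) ≤ Real.exp (-yy (2 * j + 4)) := by
      rw [Real.exp_neg, e3, one_div]
      refine inv_anti₀ (e3 ▸ Real.exp_pos _) ?_
      push_cast
      nlinarith [Real.log_two_lt_d9, Nat.cast_nonneg (α := ℝ) j]
    rw [Real.norm_of_nonneg (by positivity)]
    refine le_trans ?_ (mul_le_mul_of_nonneg_left c4 (by positivity))
    have c7 : (4 : ℝ) ^ j * (Real.exp (-4) * (1 / (2 * ((j : ℝ) + 2)))) ≤ 2 * (t j).card :=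
      le_trans (by gcongr) c5
    have c8 : (4 : ℝ) ^ j * (Real.exp (-4) * (1 / (2 * ((j : ℝ) + 2)))) / 2 ≤ (t j).card := by
      linarith
    refine le_trans (le_of_eq ?_) (mul_le_mul_of_nonneg_left
      (mul_le_mul_of_nonneg_right c8 (by positivity)) (by positivity))
    rw [Real.exp_neg]
    push_cast
    field_simp
    norm_num
  · obtain ⟨j, a0⟩ : ∃ j, a ∈ t j := by simpa using H 0 (by omega)
    obtain ⟨i, a1⟩ : ∃ j, a + d ∈ t j := by simpa using H 1 (by omega)
    obtain ⟨l, a2⟩ : ∃ j, a + 2 * d ∈ t j := H 2 (by omega)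
    obtain ⟨rfl, rfl⟩ := blk_three (mem _ _ a0).1 (mem _ _ a1).1 (mem _ _ a2).1
    obtain ⟨b0, q0, s0, c0, e0⟩ := mem _ _ a0
    obtain ⟨-, q1, s1, c1, e1⟩ := mem _ _ a1
    obtain ⟨-, q2, s2, c2, e2⟩ := mem _ _ a2
    obtain ⟨b1, b2⟩ := mem_Ico.1 b0
    have p0 := Nat.pos_of_ne_zero (pow_ne_zero l (show 4 ≠ 0 by norm_num))
    have h2 : d < M l := by
      refine Nat.lt_succ_of_le (Nat.le_floor (h1.trans (Real.exp_le_exp.2 ?_)))
      have a8 : (8 : ℝ) ≤ a := by exact_mod_cast (show 8 ≤ a by omega)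
      have k1 : 1 ≤ Real.log a := by
        rw [Real.le_log_iff_exp_le (by linarith)]; linarith [Real.exp_one_lt_d9]
      refine div_le_div_of_nonneg_right (pow_le_pow_left₀ (Real.log_nonneg k1)
        (Real.log_le_log (by linarith) (Real.log_le_log (by linarith) ?_)) _) (by norm_num)
      have : a ≤ 2 ^ (2 * l + 4) := by rw [pow_add, pow_mul]; norm_num; omega
      exact_mod_cast this
    have r0 := mem_range.1 (S1 l c0)
    have r1 := mem_range.1 (S1 l c1)
    have r2 := mem_range.1 (S1 l c2)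
    obtain rfl : q0 = q1 := quo_eq r0 r1 h2 (by omega)
    obtain rfl : q0 = q2 := quo_eq r1 r2 h2 (by omega)
    have := S3 l c0 c1 c2 (by omega)
    omega

section Rand

variable {Ω κ : Type}

/-- a linear combination of indicators -/
noncomputable def lin (s : Finset κ) (c : κ → ℝ) (S : κ → Set Ω) (ω : Ω) : ℝ :=
  ∑ x ∈ s, c x * (S x).indicator 1 ω

theorem meas_lin [MeasurableSpace Ω] {s : Finset κ} (c : κ → ℝ) {S : κ → Set Ω}
    (h : ∀ x ∈ s, MeasurableSet (S x)) : Measurable (lin s c S) :=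
  Finset.measurable_fun_sum s fun x hx => (measurable_one.indicator (h x hx)).const_mul _

theorem int_lin [MeasurableSpace Ω] (P : Measure Ω) [IsFiniteMeasure P] {s : Finset κ} (c : κ → ℝ)
    {S : κ → Set Ω} (h : ∀ x ∈ s, MeasurableSet (S x)) :
    Integrable (lin s c S) P ∧ ∫ ω, lin s c S ω ∂P = ∑ x ∈ s, c x * P.real (S x) := by
  have h1 : ∀ x ∈ s, Integrable (fun ω => c x * (S x).indicator (1 : Ω → ℝ) ω) P := fun x hx =>
    ((integrable_const (1 : ℝ)).indicator (h x hx)).const_mul _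
  refine ⟨integrable_finsetSum s h1, ?_⟩
  unfold lin
  rw [integral_finsetSum s h1]
  exact sum_congr rfl fun x hx => by rw [integral_const_mul, integral_indicator_one (h x hx)]

/-- the weight of the block -/
noncomputable def mu (j : ℕ) : ℝ := ∑ a ∈ blk j, 1 / (a : ℝ)

theorem mu_ge (j : ℕ) : 1 / 5 ≤ mu j := by
  have h : (blk j).card • (1 / (10 * (4 : ℝ) ^ j)) ≤ mu j := card_nsmul_le_sum _ _ _ fun a ha => by
    obtain ⟨b1, b2⟩ := mem_Ico.1 ha
    have := Nat.pos_of_ne_zero (pow_ne_zero j (show 4 ≠ 0 by norm_num))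
    exact one_div_le_one_div_of_le (by exact_mod_cast (show 0 < a by omega))
      (by exact_mod_cast b2.le)
  rw [blk, Nat.card_Ico, show 10 * 4 ^ j - 8 * 4 ^ j = 2 * 4 ^ j by omega, nsmul_eq_mul] at h
  refine le_trans (le_of_eq ?_) h
  push_cast; field_simp; norm_num

/-- the event that a large weight of the block survives the deletion -/
def ev (k : ℕ) (w : ℕ → ℝ) (E : ℕ → Set Ω) (j : ℕ) : Set Ω :=
  {ω | mu j / 4 ≤ lin (blk j) w E ω -
    lin (blk j ×ˢ Icc 1 (4 ^ j)) (fun x => w x.1) (fun x => ⋂ b ∈ edge k x, E b) ω}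

theorem meas_ev [MeasurableSpace Ω] (k : ℕ) (w : ℕ → ℝ) {E : ℕ → Set Ω} {j : ℕ}
    (h : ∀ a, j ≤ a → MeasurableSet (E a)) : MeasurableSet (ev k w E j) := by
  have h1 : ∀ a ∈ blk j, j ≤ a := fun a ha => by
    have := (mem_Ico.1 ha).1
    have := Nat.lt_pow_self (n := j) (show 1 < 4 by norm_num)
    omega
  refine measurableSet_le measurable_const ((meas_lin _ fun a ha => h a (h1 a ha)).sub
    (meas_lin _ fun x hx => Finset.measurableSet_biInter _ fun b hb => h b ?_))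
  obtain ⟨i, -, rfl⟩ := mem_edge.1 hb
  exact (h1 _ (mem_product.1 hx).1).trans (Nat.le_add_right _ _)

open Classical in
/-- the points of the block that survive the deletion -/
noncomputable def surv (k : ℕ) (E : ℕ → Set Ω) (ω : Ω) (j : ℕ) : Finset ℕ :=
  (blk j).filter fun a => ω ∈ E a ∧ ∀ d ∈ Icc 1 (4 ^ j), ω ∉ ⋂ b ∈ edge k (a, d), E b

open Classical in
theorem mem_surv {k : ℕ} {E : ℕ → Set Ω} {ω : Ω} {j a : ℕ} : a ∈ surv k E ω j ↔
    a ∈ blk j ∧ ω ∈ E a ∧ ∀ d ∈ Icc 1 (4 ^ j), ω ∉ ⋂ b ∈ edge k (a, d), E b := by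
  unfold surv; exact @mem_filter _ _ (_) _ _

open Classical in
theorem ev_weight {k : ℕ} {w : ℕ → ℝ} (w0 : ∀ a, 0 ≤ w a) {E : ℕ → Set Ω} {j : ℕ} {ω : Ω}
    (h : ω ∈ ev k w E j) : 1 / 20 ≤ ∑ a ∈ surv k E ω j, w a := by
  refine le_trans (by linarith [mu_ge j]) (le_trans h ?_)
  unfold lin surv
  rw [sum_product, ← sum_sub_distrib, sum_filter]
  refine sum_le_sum fun a _ => ?_
  have n0 : ∀ d, 0 ≤ w a * (⋂ b ∈ edge k (a, d), E b).indicator (1 : Ω → ℝ) ω := fun d =>
    mul_nonneg (w0 a) (Set.indicator_nonneg (fun _ _ => zero_le_one) ω)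
  have n1 := sum_nonneg (s := Icc 1 (4 ^ j)) fun d _ => n0 d
  by_cases h1 : ω ∈ E a
  · rw [Set.indicator_of_mem h1, Pi.one_apply, mul_one]
    split_ifs with h2
    · exact sub_le_self _ n1
    · push Not at h2
      obtain ⟨d, h3, h4⟩ := h2 h1
      have := single_le_sum (fun d _ => n0 d) h3
      rw [Set.indicator_of_mem h4, Pi.one_apply, mul_one] at this
      exact sub_nonpos.2 this
  · rw [Set.indicator_of_notMem h1, if_neg fun h => h1 h.1, mul_zero]
    exact sub_nonpos.2 n1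

theorem lin_sq (s : Finset ℕ) (w : ℕ → ℝ) (E : ℕ → Set Ω) (ω : Ω) : lin s w E ω ^ 2 =
    lin (s ×ˢ s) (fun x => w x.1 * w x.2) (fun x => ⋂ b ∈ ({x.1, x.2} : Finset ℕ), E b) ω := by
  unfold lin
  rw [sq, sum_mul_sum, sum_product]
  refine sum_congr rfl fun a _ => sum_congr rfl fun b _ => ?_
  simp only
  rw [Finset.set_biInter_insert, Finset.set_biInter_singleton, Set.inter_indicator_one,
    Pi.mul_apply]
  ring

theorem prob_ev [MeasurableSpace Ω] {P : Measure Ω} [IsProbabilityMeasure P] {E : ℕ → Set Ω}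
    (hm : ∀ n, MeasurableSet (E n)) (hE : iIndepSet E P) {k j : ℕ} (hk : 2 ≤ k)
    (hp : ∀ n : ℕ, 8 * 4 ^ j ≤ n → 5 / (n : ℝ) ≤ P.real (E n) ∧
      P.real (E n) ≤ (n : ℝ) ^ (-(1 / ((k : ℝ) - 1)))) :
    3 / 16 ≤ P.real (ev k (fun a => 1 / ((a : ℝ) * P.real (E a))) E j) := by
  set w : ℕ → ℝ := fun a => 1 / ((a : ℝ) * P.real (E a)) with hw
  have pr : ∀ S : Finset ℕ, P.real (⋂ b ∈ S, E b) = ∏ b ∈ S, P.real (E b) := fun S => by
    rw [measureReal_def, hE.meas_biInter, ENNReal.toReal_prod]; rfl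
  have x0 : 0 < 8 * 4 ^ j := by positivity
  have a0 : ∀ a ∈ blk j, (0 : ℝ) < a := fun a ha => by
    exact_mod_cast x0.trans_le (mem_Ico.1 ha).1
  have p0 : ∀ a ∈ blk j, 0 < P.real (E a) := fun a ha =>
    lt_of_lt_of_le (div_pos (by norm_num) (a0 a ha)) (hp a (mem_Ico.1 ha).1).1
  have w0 : ∀ a, 0 ≤ w a := fun a => by simp only [hw]; positivity
  have w1 : ∀ a ∈ blk j, w a * P.real (E a) = 1 / a := fun a ha => by
    have := a0 a ha
    have := p0 a ha
    simp only [hw]; field_simp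
  have w2 : ∀ a ∈ blk j, w a ≤ 1 / 5 := fun a ha => by
    have := (hp a (mem_Ico.1 ha).1).1
    rw [div_le_iff₀' (a0 a ha)] at this
    exact one_div_le_one_div_of_le (by norm_num) this
  obtain ⟨i1, e1⟩ := int_lin P (s := blk j) w (S := E) fun a _ => hm a
  obtain ⟨i2, e2⟩ := int_lin P (s := blk j ×ˢ Icc 1 (4 ^ j)) (fun x => w x.1)
    (S := fun x => ⋂ b ∈ edge k x, E b) fun x _ => Finset.measurableSet_biInter _ fun b _ => hm b
  obtain ⟨i3, e3⟩ := int_lin P (s := blk j ×ˢ blk j) (fun x => w x.1 * w x.2)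
    (S := fun x => ⋂ b ∈ ({x.1, x.2} : Finset ℕ), E b)
    fun x _ => Finset.measurableSet_biInter _ fun b _ => hm b
  have mG := meas_ev k w (E := E) (j := j) fun a _ => hm a
  have m1 := mu_ge j
  rw [sum_congr rfl w1] at e1
  have f2 : ∑ x ∈ blk j ×ˢ Icc 1 (4 ^ j), w x.1 * P.real (⋂ b ∈ edge k x, E b) ≤ mu j / 8 := by
    rw [sum_product, mu, sum_div]
    refine sum_le_sum fun a ha => (sum_le_card_nsmul _ _ (1 / (a : ℝ) * (1 / (8 * 4 ^ j))) fun d hd =>
      ?_).trans (le_of_eq ?_)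
    · have k1 : a ∈ edge k (a, d) := mem_edge.2 ⟨0, by omega, by simp⟩
      have k2 : (2 : ℝ) ≤ k := by exact_mod_cast hk
      have k3 : (0 : ℝ) < ((8 * 4 ^ j : ℕ) : ℝ) := by exact_mod_cast x0
      rw [pr, ← mul_prod_erase _ _ k1, ← mul_assoc, w1 a ha]
      refine mul_le_mul_of_nonneg_left ?_ (by positivity)
      refine (prod_le_prod (g := fun _ => ((8 * 4 ^ j : ℕ) : ℝ) ^ (-(1 / ((k : ℝ) - 1))))
        (fun b _ => measureReal_nonneg) fun b hb => ?_).trans (le_of_eq ?_)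
      · obtain ⟨i, -, k4⟩ := mem_edge.1 (mem_of_mem_erase hb)
        have k5 : 8 * 4 ^ j ≤ b := (mem_Ico.1 ha).1.trans (k4 ▸ Nat.le_add_right _ _)
        exact (hp b k5).2.trans (Real.rpow_le_rpow_of_nonpos k3 (Nat.cast_le.2 k5)
          (neg_nonpos.2 (one_div_nonneg.2 (by linarith))))
      · rw [prod_const, card_erase_of_mem k1, card_edge k (x := (a, d)) (mem_Icc.1 hd).1, ← Real.rpow_natCast,
          ← Real.rpow_mul k3.le, Nat.cast_sub (by omega), Nat.cast_one, neg_mul,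
          one_div_mul_cancel (by linarith), Real.rpow_neg_one, one_div]
        norm_num
    · rw [Nat.card_Icc, Nat.add_sub_cancel, nsmul_eq_mul]
      push_cast; field_simp
  have f3 : ∑ x ∈ blk j ×ˢ blk j, w x.1 * w x.2 * P.real (⋂ b ∈ ({x.1, x.2} : Finset ℕ), E b) ≤
      2 * mu j ^ 2 := by
    have k1 : ∑ x ∈ blk j ×ˢ blk j, w x.1 * w x.2 * P.real (⋂ b ∈ ({x.1, x.2} : Finset ℕ), E b) ≤
        ∑ a ∈ blk j, ∑ b ∈ blk j, ((1 / (a : ℝ)) * (1 / (b : ℝ)) +
          if a = b then 1 / (a : ℝ) * (1 / 5) else 0) := by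
      rw [sum_product]
      refine sum_le_sum fun a ha => sum_le_sum fun b hb => ?_
      rw [pr]
      split_ifs with h
      · subst h
        rw [pair_eq_singleton, prod_singleton, mul_right_comm, w1 a ha]
        exact le_add_of_nonneg_of_le (by positivity)
          (mul_le_mul_of_nonneg_left (w2 a ha) (by positivity))
      · rw [prod_pair h, ← w1 a ha, ← w1 b hb]
        exact le_of_eq (by ring)
    simp only [sum_add_distrib, sum_ite_eq] at k1
    rw [← sum_mul_sum, sum_congr rfl fun a ha => if_pos ha, ← sum_mul] at k1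
    refine k1.trans ?_
    change mu j * mu j + mu j * (1 / 5) ≤ _
    nlinarith
  have iG : Integrable ((ev k w E j).indicator (1 : Ω → ℝ)) P := (integrable_const 1).indicator mG
  have h1 := integral_mono (i1.sub i2) (((integrable_const (mu j / 4)).add
    (i3.div_const (8 * mu j))).add (iG.const_mul (2 * mu j))) fun ω => by
      simp only [Pi.sub_apply, Pi.add_apply]
      rw [← lin_sq]
      have k0 : 0 ≤ lin (blk j) w E ω ^ 2 / (8 * mu j) := by positivity
      by_cases h : ω ∈ ev k w E j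
      · rw [Set.indicator_of_mem h, Pi.one_apply]
        have k1 : 0 ≤ lin (blk j ×ˢ Icc 1 (4 ^ j)) (fun x => w x.1)
            (fun x => ⋂ b ∈ edge k x, E b) ω := sum_nonneg fun x _ =>
          mul_nonneg (w0 _) (Set.indicator_nonneg (fun _ _ => zero_le_one) ω)
        have k2 : lin (blk j) w E ω - 2 * mu j ≤ lin (blk j) w E ω ^ 2 / (8 * mu j) := by
          rw [le_div_iff₀ (by linarith)]
          nlinarith [sq_nonneg (lin (blk j) w E ω - 4 * mu j)]
        linarith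
      · rw [Set.indicator_of_notMem h]
        have : _ < mu j / 4 := not_le.1 h
        linarith
  rw [integral_sub' i1 i2, integral_add' ((integrable_const (mu j / 4)).add
    (i3.div_const (8 * mu j))) (iG.const_mul (2 * mu j)), integral_add' (integrable_const (mu j / 4))
    (i3.div_const (8 * mu j)), integral_const, integral_div, integral_const_mul,
    integral_indicator_one mG, e1, e2, e3, probReal_univ, one_smul] at h1
  have h2 : 2 * mu j ^ 2 / (8 * mu j) = mu j / 4 := by field_simp; norm_num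
  have h3 := div_le_div_of_nonneg_right f3 (show 0 ≤ 8 * mu j by linarith)
  have h4 : ∑ a ∈ blk j, 1 / (a : ℝ) = mu j := rfl
  exact le_of_mul_le_mul_left (a := 2 * mu j) (by linarith) (by linarith)

theorem random_sharp [MeasurableSpace Ω] (P : Measure Ω) [IsProbabilityMeasure P] (E : ℕ → Set Ω)
    (hm : ∀ n, MeasurableSet (E n)) (hE : iIndepSet E P) {k : ℕ} (hk : 3 ≤ k)
    (hp : ∀ᶠ n : ℕ in atTop, 5 / (n : ℝ) ≤ P.real (E n) ∧
      P.real (E n) ≤ (n : ℝ) ^ (-(1 / ((k : ℝ) - 1)))) :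
    ∀ᵐ ω ∂P, ∃ A : Set ℕ, (∀ a ∈ A, ω ∈ E a) ∧
      ¬ Summable (fun a : A => (1 : ℝ) / ((a : ℕ) * P.real (E a))) ∧
      ∀ a d : ℕ, 0 < d → ¬ ∀ i : ℕ, i < k → a + i * d ∈ A := by
  classical
  obtain ⟨n0, hp⟩ := eventually_atTop.1 hp
  set w : ℕ → ℝ := fun a => 1 / ((a : ℝ) * P.real (E a)) with hw
  have w0 : ∀ a, 0 ≤ w a := fun a => by simp only [hw]; positivity
  have mG : ∀ j, MeasurableSet (ev k w E j) := fun j => meas_ev k w fun a _ => hm a
  have mT := MeasurableSet.measurableSet_limsup mG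
  have tail : MeasurableSet[limsup (fun n => MeasurableSpace.generateFrom {E n}) atTop]
      (limsup (ev k w E) atTop) := by
    rw [limsup_eq_iInf_iSup_of_nat, MeasurableSpace.measurableSet_iInf]
    intro n
    rw [← limsup_nat_add _ n]
    refine @MeasurableSet.measurableSet_limsup _ (_) _ fun j => @meas_ev _ (_) k w E _ fun a ha => ?_
    exact (le_iSup₂_of_le (f := fun i (_ : i ≥ n) => MeasurableSpace.generateFrom {E i}) a
      (by omega) le_rfl) _ (MeasurableSpace.measurableSet_generateFrom rfl)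
  rcases measure_zero_or_one_of_measurableSet_limsup_atTop
    (fun n => MeasurableSpace.generateFrom_singleton_le (hm n)) ((iIndepSet_iff_iIndep _ _).1 hE)
    tail with h | h
  · exfalso
    have h1 := tendsto_measure_of_ae_tendsto_indicator_of_isFiniteMeasure atTop (μ := P)
      MeasurableSet.empty mG (by
        filter_upwards [measure_eq_zero_iff_ae_notMem.1 h] with ω hω
        rw [mem_limsup_iff_frequently_mem, not_frequently] at hω
        exact hω.mono fun j hj => ⟨fun h => absurd h hj, fun h => h.elim⟩)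
    have h2 := (ENNReal.tendsto_toReal (measure_ne_top P ∅)).comp h1
    rw [measure_empty, ENNReal.toReal_zero] at h2
    obtain ⟨j, h3, h4⟩ := ((h2.eventually_lt_const (show (0 : ℝ) < 3 / 16 by norm_num)).and
      (eventually_ge_atTop n0)).exists
    refine absurd (prob_ev hm hE (j := j) (by omega) fun n hn => hp n ?_) (not_le.2 h3)
    have := Nat.lt_pow_self (n := j) (show 1 < 4 by norm_num)
    omega
  filter_upwards [(mem_ae_iff_prob_eq_one mT).2 h] with ω hω
  rw [mem_limsup_iff_frequently_mem] at hω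
  have hA : ∀ a ∈ {a | ∃ j, a ∈ surv k E ω j}, ω ∈ E a := fun a ⟨j, ha⟩ => (mem_surv.1 ha).2.1
  refine ⟨{a | ∃ j, a ∈ surv k E ω j}, hA, fun hs => ?_, fun a d hd H => ?_⟩
  · have h1 := (summable_of_blk w0 (surv k E ω)
      (fun j a ha => ⟨(mem_surv.1 ha).1, Exists.intro j ha⟩) hs).tendsto_atTop_zero
    obtain ⟨j, h2, h3⟩ := (hω.and_eventually
      (h1.eventually_lt_const (show (0 : ℝ) < 1 / 20 by norm_num))).exists
    exact absurd (ev_weight w0 h2) (not_le.2 h3)
  · obtain ⟨j, a0⟩ : ∃ j, a ∈ surv k E ω j := by simpa using H 0 (by omega)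
    obtain ⟨i, a1⟩ : ∃ j, a + d ∈ surv k E ω j := by simpa using H 1 (by omega)
    obtain ⟨l, a2⟩ : ∃ j, a + 2 * d ∈ surv k E ω j := H 2 (by omega)
    obtain ⟨-, rfl⟩ := blk_three (mem_surv.1 a0).1 (mem_surv.1 a1).1 (mem_surv.1 a2).1
    have b1 := (mem_Ico.1 (mem_surv.1 a0).1).1
    have b2 := (mem_Ico.1 (mem_surv.1 a2).1).2
    refine (mem_surv.1 a0).2.2 d (mem_Icc.2 ⟨hd, by omega⟩)
      (Set.mem_iInter₂.2 fun b hb => ?_)
    obtain ⟨x, h1, rfl⟩ := mem_edge.1 hb
    exact hA _ (H x h1)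

end Rand

end Vale.Agent.N057
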